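import Vale.Agent.P275MO.Defs

/-!
# P275, block MO: charts and the blocks
-/

set_option linter.unusedSectionVars false

open scoped Topology Matrix.Norms.Operator ContDiff ComplexConjugate BoundedContinuousFunction
open Set Filter Metric Matrix

noncomputable section

namespace Vale.Agent.P275MO

open Vale.Agent.P281Z.Hm (Mx)
open Vale.Agent.P275GC
open Vale.Agent.P275NA (Fm Cy Mn db dz Wk)

variable {C : Type} [TopologicalSpace C] {n : ℕ}

/-- the matrix of the connection times the equation of the pole, in a chart which contains it -/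
def fill (A : At C) (z : Dat C A.N n) (i : Fin A.N) (w : ℂ) : Mn n :=
  by classical exact if (A.e i).symm w = z.x then z.σ i * z.R * (z.σ i)⁻¹
    else (w - A.e i z.x) • z.a i w

/-- the same object in the frames `Φ` (of determinant one) -/
def gauge (A : At C) (Φ : Fm A (Mn n)) (z : Dat C A.N n) : Dat C A.N n :=
  ⟨z.lam, z.x, P275NA.fc A Φ z.g, fun i w => (Φ i w)⁻¹ * (z.lam • deriv (Φ i) w + z.a i w * Φ i w),
    fun i => (Φ i (A.e i z.x))⁻¹ * z.σ i, z.R⟩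

/-- the trace free part -/
def tf (X : Mn n) : Mn n := X - ((n : ℂ)⁻¹ * X.trace) • (1 : Mn n)

/-- the object given by the Dolbeault operator `db + α` and the connection `λ dz + β` on the
smooth bundle of `g`, in frames `F` which are holomorphic for `db + α` -/
def dol (A : At C) (lam : ℂ) (x : C) (g : Cy A (Mn n)) (β F : Fm A (Mn n)) (σ : Fin A.N → Mn n)
    (R : Mn n) : Dat C A.N n :=
  ⟨lam, x, P275NA.fc A F g, fun i w => tf ((F i w)⁻¹ * (lam • dz (F i) w + β i w * F i w)),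
    fun i => (F i (A.e i x))⁻¹ * σ i, R⟩

/-- the parameter space of a chart: `λ`, the coordinate of the pole, `η`, and the rest -/
abbrev Pm (m D : ℕ) : Type := ℂ × ℂ × (Fin m → ℂ) × (Fin D → ℂ)

/-- a Kuranishi chart with its universal family -/
structure Chart (A : At C) (l : Cy A ℂ) (τ : Ty n) where
  D : ℕ
  i0 : Fin A.N
  r : ℝ
  h1 : 1 < r
  h2 : r ≤ A.R
  e : OpenPartialHomeomorph (Mod A l τ) (Pm τ.m D)
  F : Pm τ.m D → Dat C A.N n
  fam : HFamOn (A.res r h1 h2) l F e.target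
  ob : ∀ w ∈ e.target, IsOb A l τ.q (F w)
  symm : ∀ w (hw : w ∈ e.target), e.symm w = Ob.pt ⟨F w, ob w hw⟩
  lam : ∀ w ∈ e.target, (F w).lam = w.1
  x : ∀ w ∈ e.target, w.2.1 ∈ ball (0 : ℂ) r ∧ (F w).x = (A.e i0).symm w.2.1
  η : ∀ w ∈ e.target, τ.η (F w).R = w.2.2.1
  hol : ∀ (E : Type) [NormedAddCommGroup E] [NormedSpace ℂ E] [FiniteDimensional ℂ E]
    (G : E → Ob A l τ) (V : Set E) (t : E) (r : ℝ) (h1 : 1 < r) (h2 : r ≤ A.R), V ∈ 𝓝 t →
    HFamOn (A.res r h1 h2) l (fun s => (G s).1) V → (G t).pt ∈ e.source →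
    DifferentiableAt ℂ (fun s => e (G s).pt) t

variable (A : At C) (l : Cy A ℂ) (n)

/-- maps of stable objects vanish or are isomorphisms; stable objects are simple -/
def SIMP : Prop := ∀ (z z' : Dat C A.N n) (φ : Fm A (Mn n)), Good A l z → Good A l z' →
  Stab A l z → Stab A l z' → Hom A z z' φ →
    ((∀ i, ∀ w ∈ ball (0 : ℂ) A.R, φ i w = 0) ∨ ∀ i, ∀ w ∈ ball (0 : ℂ) A.R, (φ i w).det ≠ 0) ∧
    (z' = z → ∃ c : ℂ, ∀ i, ∀ w ∈ ball (0 : ℂ) A.R, φ i w = c • 1)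

/-- normalised limits of nonzero maps -/
def LIMH : Prop := ∀ (T : Type) [TopologicalSpace T] (F F' : T → Dat C A.N n) (V : Set T)
  (t t' : T) (J : Type) (U : Ultrafilter J) (s s' : J → T) (φ : J → Fm A (Mn n)),
  FamOn A l F V → FamOn A l F' V → t ∈ V → t' ∈ V → Tendsto s U (𝓝[V] t) →
  Tendsto s' U (𝓝[V] t') →
  (∀ j, Hom A (F (s j)) (F' (s' j)) (φ j) ∧ ∃ i, ∃ w ∈ ball (0 : ℂ) A.R, φ j i w ≠ 0) →
  ∃ (c : J → ℂ) (ψ : Fm A (Mn n)), (∀ j, c j ≠ 0) ∧ Hom A (F t) (F' t') ψ ∧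
    (∃ i, ∃ w ∈ ball (0 : ℂ) A.R, ψ i w ≠ 0) ∧
    ∀ i, TendstoLocallyUniformlyOn (fun j w => c j • φ j i w) (ψ i) U (ball 0 A.R)

/-- isomorphisms between the members of two families can be chosen continuously -/
def ISOC : Prop := ∀ (H : Subalgebra ℂ (Mn n)) (T : Type) [TopologicalSpace T]
  (F F' : T → Dat C A.N n) (V : Set T) (t : T), FamOn A l F V → FamOn A l F' V → t ∈ V →
  (∀ s ∈ V, Stab A l (F s) ∧ Stab A l (F' s) ∧ Iso A H (F s) (F' s)) →
  ∃ V' ∈ 𝓝[V] t, ∃ (Φ : T → Fm A (Mn n)) (h : T → Mn n), V' ⊆ V ∧ ContinuousOn h V' ∧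
    (∀ i, ContinuousOn (fun p : T × ℂ => Φ p.1 i p.2) (V' ×ˢ ball 0 A.R)) ∧
    ∀ s ∈ V', h s ∈ H ∧ IsoBy A (F s) (F' s) (Φ s) (h s)

/-- stability is open -/
def OPST : Prop := ∀ (T : Type) [TopologicalSpace T] (F : T → Dat C A.N n) (V : Set T) (t : T),
  FamOn A l F V → t ∈ V → Stab A l (F t) → ∀ᶠ s in 𝓝[V] t, Stab A l (F s)

/-- stability is open at `λ = 0` -/
def OPST0 : Prop := ∀ (T : Type) [TopologicalSpace T] (F : T → Dat C A.N n) (V : Set T) (t : T),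
  FamOn A l F V → t ∈ V → (F t).lam = 0 → Stab A l (F t) → ∀ᶠ s in 𝓝[V] t, Stab A l (F s)

/-- holomorphic frames of determinant one for a continuous family of trace free Dolbeault
operators on a disc -/
def FINT : Prop := ∀ (T : Type) [TopologicalSpace T] (α : T → ℂ → Mn n) (V : Set T) (t : T)
  (r' r : ℝ), r' < r → t ∈ V → (∀ s ∈ V, ContDiffOn ℝ ∞ (α s) (ball 0 r)) →
  (∀ s ∈ V, ∀ w ∈ ball (0 : ℂ) r, (α s w).trace = 0) →
  ContinuousOn (fun p : T × ℂ => α p.1 p.2) (V ×ˢ ball 0 r) →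
  ∃ V' ∈ 𝓝[V] t, ∃ F : T → ℂ → Mn n, V' ⊆ V ∧
    ContinuousOn (fun p : T × ℂ => F p.1 p.2) (V' ×ˢ ball 0 r') ∧
    (ContinuousOn (fun p : T × ℂ => dz (α p.1) p.2) (V ×ˢ ball 0 r) →
      ContinuousOn (fun p : T × ℂ => dz (F p.1) p.2) (V' ×ˢ ball 0 r')) ∧
    ∀ s ∈ V', ContDiffOn ℝ ∞ (F s) (ball 0 r') ∧
      ∀ w ∈ ball (0 : ℂ) r', (F s w).det = 1 ∧ db (F s) w + α s w * F s w = 0

/-- the same, holomorphic in a parameter, near `α = 0` -/
def HINT : Prop := ∀ (E : Type) [NormedAddCommGroup E] [NormedSpace ℂ E] [FiniteDimensional ℂ E]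
  (α : E →ₗ[ℂ] ℂ → Mn n) (r' r : ℝ), r' < r → (∀ s, ContDiffOn ℝ ∞ (α s) (ball 0 r)) →
  (∀ s, ∀ w ∈ ball (0 : ℂ) r, (α s w).trace = 0) →
  ∃ (F P : E → closedBall (0 : ℂ) r' →ᵇ Mn n) (G : E → ℂ → Mn n), AnalyticAt ℂ F 0 ∧
    AnalyticAt ℂ P 0 ∧ F 0 = 1 ∧ P 0 = 0 ∧ ∀ᶠ s in 𝓝 0, ContDiffOn ℝ ∞ (G s) (ball 0 r') ∧
      (∀ w : closedBall (0 : ℂ) r', F s w = G s w) ∧
      ∀ w (hw : w ∈ ball (0 : ℂ) r'), P s ⟨w, ball_subset_closedBall hw⟩ = dz (G s) w ∧
        (G s w).det = 1 ∧ db (G s) w + α s w * G s w = 0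

/-- continuous sections of the bundle with cocycle `G`, read on the closed unit discs -/
def Sct {V : Type} [NormedAddCommGroup V] [NormedSpace ℂ V] (G : Cy A (V →L[ℂ] V)) :
    Submodule ℂ (Fin A.N → C(closedBall (0 : ℂ) 1, V)) where
  carrier := {u | ∀ i j (w : closedBall (0 : ℂ) 1) (h : A.tr i j w ∈ closedBall (0 : ℂ) 1),
    (w : ℂ) ∈ A.O i j → u i w = G i j w (u j ⟨_, h⟩)}
  add_mem' := fun ha hb i j w h hw => by simp [ha i j w h hw, hb i j w h hw]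
  zero_mem' := fun i j w h hw => by simp
  smul_mem' := fun c a ha i j w h hw => by simp [ha i j w h hw]

/-- the cocycle of the `(0,1)`-forms with values in the bundle -/
def bar {V : Type} [NormedAddCommGroup V] [NormedSpace ℂ V] (G : Cy A (V →L[ℂ] V)) :
    Cy A (V →L[ℂ] V) := fun i j w => conj (A.d i j w) • G i j w

/-- a section as a family of functions on the discs of `A` -/
def Sct.fm {V : Type} [NormedAddCommGroup V] [NormedSpace ℂ V] {G : Cy A (V →L[ℂ] V)}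
    (u : Sct A G) : Fm A V :=
  A.xt (fun i j w v => G i j w v) fun i w =>
    by classical exact if h : w ∈ closedBall (0 : ℂ) 1 then u.1 i ⟨w, h⟩ else 0

/-- a bounded solution operator of `db` modulo a finite dimensional space of smooth forms -/
structure Slv {V : Type} [NormedAddCommGroup V] [NormedSpace ℝ V] [NormedSpace ℂ V]
    (G : Cy A (V →L[ℂ] V)) where
  S : Sct A (bar A G) →L[ℂ] Sct A G
  π : Sct A (bar A G) →L[ℂ] Sct A (bar A G)
  p : Sct A G →L[ℂ] Sct A G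
  finπ : FiniteDimensional ℂ (LinearMap.range π.toLinearMap)
  finp : FiniteDimensional ℂ (LinearMap.range p.toLinearMap)
  smπ : ∀ f, A.Sm ∞ (Sct.fm A (π f))
  ππ : ∀ f, π (π f) = π f
  pp : ∀ u, p (p u) = p u
  holp : ∀ u, A.Hl (Sct.fm A (p u))
  wk : ∀ f i, Wk (ball 0 A.R) (Sct.fm A (S f) i) (Sct.fm A (f - π f) i)
  uni : ∀ u f, (∀ i, Wk (ball 0 A.R) (Sct.fm A u i) (Sct.fm A f i)) → π f = 0 ∧ u = S f + p u

/-- existence of solution operators, and Serre duality: a functional which kills the exact forms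
is the integral against a holomorphic section of the dual bundle tensored with `K` -/
def DOL : Prop := ∀ (V : Type) [NormedAddCommGroup V] [NormedSpace ℝ V] [NormedSpace ℂ V]
  [IsScalarTower ℝ ℂ V] [FiniteDimensional ℂ V] (G : Cy A (V →L[ℂ] V)), A.Cc G →
  Nonempty (Slv A G) ∧ ∀ (K : Slv A G) (ξ : Sct A (bar A G) →L[ℂ] ℂ), (∀ f, ξ f = ξ (K.π f)) →
    ∃ u : Fm A (V →L[ℂ] ℂ), A.Hl u ∧
      (∀ i j, ∀ w ∈ A.O i j, (u i w).comp (G i j w) = A.d i j w • u j (A.tr i j w)) ∧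
      ∀ f, ξ f = A.int fun i w => u i w (Sct.fm A f i w)

/-- **Kuranishi** -/
def KUR : Prop := ∀ (τ : Ty n) (y : Mod A l τ), ∃ K : Chart A l τ, y ∈ K.e.source

/-- the moduli spaces are Hausdorff, locally compact, second countable -/
def NICE : Prop := ∀ τ : Ty n, T2Space (Mod A l τ) ∧ LocallyCompactSpace (Mod A l τ) ∧
  SecondCountableTopology (Mod A l τ)

end Vale.Agent.P275MO
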