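import Vale.Agent.P275MO.Props

/-!
# P275, block MO: the pieces of the Kuranishi theorem
-/

set_option linter.unusedSectionVars false

open scoped Topology Matrix.Norms.Operator ContDiff ComplexConjugate
open Set Filter Metric Matrix

noncomputable section

namespace Vale.Agent.P275MO

open Vale.Agent.P281Z.Hm (Mx)
open Vale.Agent.P275GC
open Vale.Agent.P275NA (Fm Cy Mn db dz Wk fc)

variable {C : Type} [TopologicalSpace C] {n : ℕ}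

/-- equal on the discs -/
structure Same (A : At C) (z z' : Dat C A.N n) : Prop where
  lam : z'.lam = z.lam
  x : z'.x = z.x
  g : ∀ i j, ∀ w ∈ A.O i j, z'.g i j w = z.g i j w
  a : ∀ i, ∀ w ∈ off A z.x i, z'.a i w = z.a i w
  σ : ∀ i, z.x ∈ (A.e i).source → z'.σ i = z.σ i
  R : z'.R = z.R

/-- `φ` is an isomorphism from the bundle `g` to the bundle `g'` -/
structure BIso (A : At C) (g g' : Cy A (Mn n)) (φ : Fm A (Mn n)) : Prop where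
  hol : A.Hl φ
  det : ∀ i, ∀ w ∈ ball (0 : ℂ) A.R, (φ i w).det ≠ 0
  law : ∀ i j, ∀ w ∈ A.O i j, φ i w * g i j w = g' i j w * φ j (A.tr i j w)

/-- a holomorphic cocycle with determinant `l` -/
structure Bun (A : At C) (l : Cy A ℂ) (g : Cy A (Mn n)) : Prop where
  cc : A.Cc g
  det : ∀ i j, ∀ w ∈ A.O i j, (g i j w).det = l i j w

/-- sections of `End E ⊗ m` -/
def ESec (A : At C) (g : Cy A (Mn n)) (m : Cy A ℂ) (u : Fm A (Mn n)) : Prop :=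
  ∀ i j, ∀ w ∈ A.O i j, u i w * g i j w = m i j w • (g i j w * u j (A.tr i j w))

/-- coordinate spaces -/
abbrev Cv (k : ℕ) : Type := Fin k → ℂ

/-- the Kuranishi family of the bundle `g0`: Dolbeault operators `db + sf s`, their holomorphic
frames `F s`, versality, and the local groupoid of isomorphisms `Φ (γ, s)` from the member
`sa (γ, s)` to the member `s` -/
structure Vb (A : At C) (l : Cy A ℂ) (g0 : Cy A (Mn n)) (i0 : Fin A.N) (ξ0 : ℂ) (ε : ℝ) where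
  k : ℕ
  m : ℕ
  r : ℝ
  h1 : 1 < r
  h2 : r ≤ A.R
  sf : Cv k →ₗ[ℂ] Fm A (Mn n)
  sm : ∀ s, A.Sm ∞ (sf s)
  law : ∀ s, ESec A g0 (fun i j w => conj (A.d i j w)) (sf s)
  tr : ∀ s i, ∀ w ∈ ball (0 : ℂ) A.R, (sf s i w).trace = 0
  van : ∀ s, ∀ w ∈ ball ξ0 ε, sf s i0 w = 0
  ks : ∀ f : Fm A (Mn n), A.Sm ∞ f → ESec A g0 (fun i j w => conj (A.d i j w)) f →
    (∀ i, ∀ w ∈ ball (0 : ℂ) A.R, (f i w).trace = 0) → ∃ (s : Cv k) (v : Fm A (Mn n)), A.Sm ∞ v ∧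
      ESec A g0 (fun _ _ _ => 1) v ∧ ∀ i, ∀ w ∈ ball (0 : ℂ) A.R, f i w = sf s i w + db (v i) w
  W : Set (Cv k)
  op : IsOpen W
  zero : 0 ∈ W
  F : Cv k → Fm A (Mn n)
  F0 : ∀ i, ∀ w ∈ ball (0 : ℂ) r, F 0 i w = 1
  Fs : ∀ s ∈ W, ∀ i, ContDiffOn ℝ ∞ (F s i) (ball 0 r)
  Fd : ∀ s ∈ W, ∀ i, ∀ w ∈ ball (0 : ℂ) r,
    (F s i w).det = 1 ∧ db (F s i) w + sf s i w * F s i w = 0
  Fc : ∀ i, ContinuousOn (fun p : Cv k × ℂ => F p.1 i p.2) (W ×ˢ ball 0 r)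
  Pc : ∀ i, ContinuousOn (fun p : Cv k × ℂ => dz (F p.1 i) p.2) (W ×ˢ ball 0 r)
  Fh : ∀ i, ∀ w ∈ ball (0 : ℂ) r, DifferentiableOn ℂ (fun s => F s i w) W
  Ph : ∀ i, ∀ w ∈ ball (0 : ℂ) r, DifferentiableOn ℂ (fun s => dz (F s i) w) W
  bun : ∀ s ∈ W, Bun (A.res r h1 h2) l (fc A (F s) g0)
  hg : ∀ i j, DifferentiableOn ℂ (fun p : Cv k × ℂ => fc A (F p.1) g0 i j p.2)
    (W ×ˢ (A.res r h1 h2).O i j)
  vc : ∀ s1 ∈ W, ∀ (T : Type) [TopologicalSpace T] (g : T → Cy A (Mn n)) (V : Set T) (t0 : T)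
    (r' : ℝ) (h1' : 1 < r') (h2' : r' ≤ r), V ∈ 𝓝 t0 →
    (∀ t ∈ V, Bun (A.res r' h1' (h2'.trans h2)) l (g t)) →
    (∀ i j, ContinuousOn (fun p : T × ℂ => g p.1 i j p.2)
      (V ×ˢ (A.res r' h1' (h2'.trans h2)).O i j)) →
    (∀ i j, ∀ w ∈ (A.res r' h1' (h2'.trans h2)).O i j, g t0 i j w = fc A (F s1) g0 i j w) →
    ∃ V' ∈ 𝓝 t0, ∃ (s : T → Cv k) (Φ : T → Fm A (Mn n)), V' ⊆ V ∧ ContinuousOn s V' ∧
      s t0 = s1 ∧ (∀ i, ContinuousOn (fun p : T × ℂ => Φ p.1 i p.2) (V' ×ˢ ball 0 r')) ∧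
      (∀ i, ∀ w ∈ ball (0 : ℂ) r', Φ t0 i w = 1) ∧
      ∀ t ∈ V', s t ∈ W ∧ BIso (A.res r' h1' (h2'.trans h2)) (fc A (F (s t)) g0) (g t) (Φ t)
  vh : ∀ s1 ∈ W, ∀ (T : Type) [NormedAddCommGroup T] [NormedSpace ℂ T] [FiniteDimensional ℂ T]
    (g : T → Cy A (Mn n)) (V : Set T) (t0 : T) (r' : ℝ) (h1' : 1 < r') (h2' : r' ≤ r),
    V ∈ 𝓝 t0 → (∀ t ∈ V, Bun (A.res r' h1' (h2'.trans h2)) l (g t)) →
    (∀ i j, DifferentiableOn ℂ (fun p : T × ℂ => g p.1 i j p.2)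
      (V ×ˢ (A.res r' h1' (h2'.trans h2)).O i j)) →
    (∀ i j, ∀ w ∈ (A.res r' h1' (h2'.trans h2)).O i j, g t0 i j w = fc A (F s1) g0 i j w) →
    ∃ (V' : Set T) (s : T → Cv k) (Φ : T → Fm A (Mn n)), IsOpen V' ∧ t0 ∈ V' ∧ V' ⊆ V ∧
      DifferentiableOn ℂ s V' ∧ s t0 = s1 ∧
      (∀ i, DifferentiableOn ℂ (fun p : T × ℂ => Φ p.1 i p.2) (V' ×ˢ ball 0 r')) ∧
      (∀ i, ∀ w ∈ ball (0 : ℂ) r', Φ t0 i w = 1) ∧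
      ∀ t ∈ V', s t ∈ W ∧ BIso (A.res r' h1' (h2'.trans h2)) (fc A (F (s t)) g0) (g t) (Φ t)
  gf : Cv m →ₗ[ℂ] Fm A (Mn n)
  ghol : ∀ γ, A.Hl (gf γ)
  glaw : ∀ γ, ESec A g0 (fun _ _ _ => 1) (gf γ)
  ginj : ∀ γ, (∀ i, ∀ w ∈ ball (0 : ℂ) A.R, gf γ i w = 0) → γ = 0
  U : Set (Cv m × Cv k)
  opU : IsOpen U
  zeroU : 0 ∈ U
  sa : Cv m × Cv k → Cv k
  Φ : Cv m × Cv k → Fm A (Mn n)
  hsa : DifferentiableOn ℂ sa U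
  hΦ : ∀ i, DifferentiableOn ℂ (fun p : (Cv m × Cv k) × ℂ => Φ p.1 i p.2) (U ×ˢ ball 0 r)
  iso : ∀ p ∈ U, p.2 ∈ W ∧ sa p ∈ W ∧
    BIso (A.res r h1 h2) (fc A (F (sa p)) g0) (fc A (F p.2) g0) (Φ p)
  id : ∀ s, (0, s) ∈ U → sa (0, s) = s ∧ ∀ i, ∀ w ∈ ball (0 : ℂ) r, Φ (0, s) i w = 1
  lin : ∀ γ, (γ, 0) ∈ U → sa (γ, 0) = 0 ∧ ∀ i, ∀ w ∈ ball (0 : ℂ) r, Φ (γ, 0) i w = 1 + gf γ i w
  uni : ∀ N ∈ 𝓝 (0 : Cv m), ∃ δ : ℝ, 0 < δ ∧ ∀ (s s' : Cv k) (φ : Fm A (Mn n)), ‖s‖ < δ →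
    ‖s'‖ < δ → BIso (A.res r h1 h2) (fc A (F s') g0) (fc A (F s) g0) φ →
    (∀ i w, ‖w‖ ≤ 1 → ‖φ i w - 1‖ < δ) →
    ∃ γ ∈ N, (γ, s) ∈ U ∧ sa (γ, s) = s' ∧ ∀ i, ∀ w ∈ ball (0 : ℂ) r, Φ (γ, s) i w = φ i w

/-- a projection onto the space of residues -/
theorem Ty.ex_pq (τ : Ty n) : ∃ f : Mn n →L[ℂ] τ.q, ∀ R : τ.q, f R = R := by
  obtain ⟨f, hf⟩ := τ.q.subtype.exists_leftInverse_of_injective τ.q.ker_subtype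
  exact ⟨LinearMap.toContinuousLinearMap f, fun R => LinearMap.congr_fun hf R⟩

/-- a projection onto the space of residues -/
def Ty.pq (τ : Ty n) : Mn n →L[ℂ] τ.q := τ.ex_pq.choose

theorem Ty.pq_coe (τ : Ty n) (R : τ.q) : τ.pq R = R := τ.ex_pq.choose_spec R

theorem Ty.coe_pq (τ : Ty n) {R : Mn n} (h : R ∈ τ.q) : (τ.pq R : Mn n) = R :=
  congrArg Subtype.val (τ.pq_coe ⟨R, h⟩)

/-- bundle parameter, `λ`, pole, frame, residue, and the rest -/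
abbrev Yp (τ : Ty n) (k k' : ℕ) : Type := Cv k × ℂ × ℂ × Mn n × τ.q × Cv k'

/-- the coordinates of an object on the member `s` of the family of bundles -/
def yc (A : At C) (τ : Ty n) (i0 : Fin A.N) {k k' : ℕ} (th : Cv k → Dat C A.N n → Cv k')
    (s : Cv k) (z : Dat C A.N n) : Yp τ k k' :=
  (s, z.lam, A.e i0 z.x, z.σ i0, τ.pq z.R, th s z)

/-- connections on the members of the family of bundles: the zero set of `ob` -/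
structure Cn (A : At C) (l : Cy A ℂ) (τ : Ty n) (z0 : Dat C A.N n) (i0 : Fin A.N) (ε : ℝ)
    (B : Vb A l z0.g i0 (A.e i0 z0.x) ε) where
  k : ℕ
  o : ℕ
  δ : ℝ
  F : Yp τ B.k k → Dat C A.N n
  ob : Yp τ B.k k → Cv o
  th : Cv B.k → Dat C A.N n → Cv k
  W : Set (Yp τ B.k k)
  op : IsOpen W
  base : yc A τ i0 th 0 z0 ∈ W
  hob : DifferentiableOn ℂ ob W
  sW : ∀ y ∈ W, y.1 ∈ B.W ∧ y.2.2.1 ∈ ball (A.e i0 z0.x) δ ∧ y.2.2.1 ∈ ball (0 : ℂ) 1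
  lam : ∀ y, (F y).lam = y.2.1
  x : ∀ y, (F y).x = (A.e i0).symm y.2.2.1
  g : ∀ y, (F y).g = fc A (B.F y.1) z0.g
  σ : ∀ y ∈ W, (F y).σ i0 = y.2.2.2.1
  R : ∀ y, (F y).R = y.2.2.2.2.1
  fam : ∀ (E : Type) [NormedAddCommGroup E] [NormedSpace ℂ E] [FiniteDimensional ℂ E]
    (ι : E → Yp τ B.k k) (V : Set E), IsOpen V → DifferentiableOn ℂ ι V →
    (∀ t ∈ V, ι t ∈ W ∧ ob (ι t) = 0) → HFamOn (A.res B.r B.h1 B.h2) l (fun t => F (ι t)) V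
  ha : ∀ i, ∀ w ∈ off (A.res B.r B.h1 B.h2) z0.x i,
    DifferentiableAt ℂ (fun y => (F y).a i w) (yc A τ i0 th 0 z0)
  rcv : ∀ (s : Cv B.k) (r' : ℝ) (h1' : 1 < r') (h2' : r' ≤ B.r) (z : Dat C A.N n),
    Good (A.res r' h1' (h2'.trans B.h2)) l z → z.R ∈ τ.q → z.x ∈ (A.e i0).source →
    (∀ i j, ∀ w ∈ (A.res r' h1' (h2'.trans B.h2)).O i j, z.g i j w = fc A (B.F s) z0.g i j w) →
    yc A τ i0 th s z ∈ W →
    ob (yc A τ i0 th s z) = 0 ∧ Same (A.res r' h1' (h2'.trans B.h2)) z (F (yc A τ i0 th s z))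
  con : ∀ y ∈ W, ob y = 0 → yc A τ i0 th y.1 (F y) = y
  loc : ∀ (s : Cv B.k) (r' : ℝ) (h1' : 1 < r') (h2' : r' ≤ A.R) (z z' : Dat C A.N n),
    z.x ∈ (A.e i0).source → A.e i0 z.x ∈ ball (A.e i0 z0.x) δ → Same (A.res r' h1' h2') z z' →
    th s z' = th s z
  thc : ∀ (T : Type) [TopologicalSpace T] (s : T → Cv B.k) (G : T → Dat C A.N n) (V : Set T)
    (r' : ℝ) (h1' : 1 < r') (h2' : r' ≤ B.r), FamOn (A.res r' h1' (h2'.trans B.h2)) l G V →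
    ContinuousOn s V → (∀ t ∈ V, s t ∈ B.W ∧ (G t).x ∈ (A.e i0).source ∧
      A.e i0 (G t).x ∈ ball (A.e i0 z0.x) δ ∧ ∀ i j, ∀ w ∈ (A.res r' h1' (h2'.trans B.h2)).O i j,
        (G t).g i j w = fc A (B.F (s t)) z0.g i j w) →
    ContinuousOn (fun t => th (s t) (G t)) V
  thh : ∀ (T : Type) [NormedAddCommGroup T] [NormedSpace ℂ T] [FiniteDimensional ℂ T]
    (s : T → Cv B.k) (G : T → Dat C A.N n) (V : Set T) (r' : ℝ) (h1' : 1 < r') (h2' : r' ≤ B.r),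
    IsOpen V → HFamOn (A.res r' h1' (h2'.trans B.h2)) l G V → DifferentiableOn ℂ s V →
    (∀ t ∈ V, s t ∈ B.W ∧ (G t).x ∈ (A.e i0).source ∧
      A.e i0 (G t).x ∈ ball (A.e i0 z0.x) δ ∧ ∀ i j, ∀ w ∈ (A.res r' h1' (h2'.trans B.h2)).O i j,
        (G t).g i j w = fc A (B.F (s t)) z0.g i j w) →
    DifferentiableOn ℂ (fun t => th (s t) (G t)) V
  sur : ∀ v, ∃ s σ, fderiv ℂ ob (yc A τ i0 th 0 z0) (s, 0, 0, σ, 0, 0) = v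

/-- the local Kuranishi family of an object -/
structure Lk (A : At C) (l : Cy A ℂ) (τ : Ty n) (z0 : Dat C A.N n) where
  D : ℕ
  i0 : Fin A.N
  r : ℝ
  h1 : 1 < r
  h2 : r ≤ A.R
  W : Set (Pm τ.m D)
  op : IsOpen W
  F : Pm τ.m D → Dat C A.N n
  w0 : Pm τ.m D
  mem : w0 ∈ W
  base : Same (A.res r h1 h2) z0 (F w0)
  fam : HFamOn (A.res r h1 h2) l F W
  hR : ∀ w ∈ W, (F w).R ∈ τ.q
  lam : ∀ w ∈ W, (F w).lam = w.1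
  x : ∀ w ∈ W, w.2.1 ∈ ball (0 : ℂ) r ∧ (F w).x = (A.e i0).symm w.2.1
  η : ∀ w ∈ W, τ.η (F w).R = w.2.2.1
  vc : ∀ w1 ∈ W, ∀ (T : Type) [TopologicalSpace T] (G : T → Dat C A.N n) (V : Set T) (t0 : T)
    (r' : ℝ) (h1' : 1 < r') (h2' : r' ≤ r), V ∈ 𝓝 t0 →
    FamOn (A.res r' h1' (h2'.trans h2)) l G V → (∀ t ∈ V, (G t).R ∈ τ.q) →
    Same (A.res r' h1' (h2'.trans h2)) (F w1) (G t0) →
    ∃ w : T → Pm τ.m D, ContinuousAt w t0 ∧ w t0 = w1 ∧ ∀ᶠ t in 𝓝 t0, Iso A τ.H (F (w t)) (G t)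
  vh : ∀ w1 ∈ W, ∀ (T : Type) [NormedAddCommGroup T] [NormedSpace ℂ T] [FiniteDimensional ℂ T]
    (G : T → Dat C A.N n) (V : Set T) (t0 : T) (r' : ℝ) (h1' : 1 < r') (h2' : r' ≤ r), V ∈ 𝓝 t0 →
    HFamOn (A.res r' h1' (h2'.trans h2)) l G V → (∀ t ∈ V, (G t).R ∈ τ.q) →
    Same (A.res r' h1' (h2'.trans h2)) (F w1) (G t0) →
    ∃ w : T → Pm τ.m D, DifferentiableAt ℂ w t0 ∧ w t0 = w1 ∧
      ∀ᶠ t in 𝓝 t0, Iso A τ.H (F (w t)) (G t)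
  inj : ∀ w ∈ W, ∀ w' ∈ W, Iso A τ.H (F w) (F w') → w = w'

variable (A : At C) (l : Cy A ℂ) (n)

/-- the Kuranishi family of a bundle exists -/
def VB : Prop := ∀ (g0 : Cy A (Mn n)) (i0 : Fin A.N) (ξ0 : ℂ) (ε : ℝ), Bun A l g0 → 0 < ε →
  ‖ξ0‖ + ε < 1 → Nonempty (Vb A l g0 i0 ξ0 ε)

/-- connections on the Kuranishi family of the bundle -/
def CN : Prop := ∀ (τ : Ty n) (z0 : Dat C A.N n) (i0 : Fin A.N) (ε : ℝ)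
  (B : Vb A l z0.g i0 (A.e i0 z0.x) ε), Good A l z0 → Stab A l z0 → z0.R ∈ τ.q →
  z0.x ∈ (A.e i0).source → 0 < ε → ‖A.e i0 z0.x‖ + ε < 1 → Nonempty (Cn A l τ z0 i0 ε B)

/-- the local Kuranishi family exists -/
def LKU : Prop := ∀ (τ : Ty n) (z0 : Dat C A.N n), Good A l z0 → Stab A l z0 → z0.R ∈ τ.q →
  Nonempty (Lk A l τ z0)

/-- changes of frames in families -/
def GF : Prop :=
  (∀ (z : Dat C A.N n) (g : Cy A (Mn n)) (Φ : Fm A (Mn n)), Good A l z → Bun A l g →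
    BIso A g z.g Φ → Good A l (gauge A Φ z) ∧ IsoBy A (gauge A Φ z) z Φ 1 ∧
      ∀ i j, ∀ w ∈ A.O i j, (gauge A Φ z).g i j w = g i j w) ∧
  (∀ (z z' : Dat C A.N n) (φ : Fm A (Mn n)) (h : Mn n), Good A l z → Good A l z' →
    IsoBy A z z' φ h → h.det ≠ 0 ∧ BIso A z.g z'.g φ ∧ Same A z (gauge A φ (z'.act h))) ∧
  (∀ (T : Type) [TopologicalSpace T] (G : T → Dat C A.N n) (g : T → Cy A (Mn n))
    (Φ : T → Fm A (Mn n)) (h : T → Mn n) (V : Set T), FamOn A l G V → ContinuousOn h V →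
    (∀ i, ContinuousOn (fun p : T × ℂ => Φ p.1 i p.2) (V ×ˢ ball 0 A.R)) →
    (∀ t ∈ V, (h t).det ≠ 0 ∧ Bun A l (g t) ∧ BIso A (g t) (G t).g (Φ t)) →
    FamOn A l (fun t => gauge A (Φ t) ((G t).act (h t))) V) ∧
  ∀ (T : Type) [NormedAddCommGroup T] [NormedSpace ℂ T] [FiniteDimensional ℂ T]
    (G : T → Dat C A.N n) (g : T → Cy A (Mn n)) (Φ : T → Fm A (Mn n)) (h : T → Mn n) (V : Set T),
    IsOpen V → HFamOn A l G V → DifferentiableOn ℂ h V →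
    (∀ i, DifferentiableOn ℂ (fun p : T × ℂ => Φ p.1 i p.2) (V ×ˢ ball 0 A.R)) →
    (∀ t ∈ V, (h t).det ≠ 0 ∧ Bun A l (g t) ∧ BIso A (g t) (G t).g (Φ t)) →
    HFamOn A l (fun t => gauge A (Φ t) ((G t).act (h t))) V

/-- charts of the zero set of a submersion, over a linear projection -/
def SLA : Prop := ∀ (Y O B : Type) [NormedAddCommGroup Y] [NormedSpace ℂ Y] [FiniteDimensional ℂ Y]
  [NormedAddCommGroup O] [NormedSpace ℂ O] [FiniteDimensional ℂ O] [NormedAddCommGroup B]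
  [NormedSpace ℂ B] [FiniteDimensional ℂ B] (ob : Y → O) (pr : Y →L[ℂ] B) (y0 : Y),
  ContDiffAt ℂ 1 ob y0 → ob y0 = 0 → (∀ o b, ∃ v, fderiv ℂ ob y0 v = o ∧ pr v = b) →
  ∃ (D : ℕ) (ζ : B × Cv D → Y) (ρ : Y → B × Cv D), ContDiffAt ℂ 1 ζ (ρ y0) ∧ ContDiff ℂ 1 ρ ∧
    ζ (ρ y0) = y0 ∧ (∀ y, (ρ y).1 = pr y) ∧ (∀ᶠ v in 𝓝 (ρ y0), ob (ζ v) = 0 ∧ ρ (ζ v) = v) ∧
    ∀ᶠ y in 𝓝 y0, ob y = 0 → ζ (ρ y) = y

/-- slices of a local action which is free to first order -/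
def SLB : Prop := ∀ (Γ B : Type) [NormedAddCommGroup Γ] [NormedSpace ℂ Γ] [FiniteDimensional ℂ Γ]
  [NormedAddCommGroup B] [NormedSpace ℂ B] [FiniteDimensional ℂ B] (D : ℕ)
  (α : Γ × (B × Cv D) → B × Cv D) (v0 : B × Cv D), ContDiffAt ℂ 1 α (0, v0) →
  (∀ᶠ v in 𝓝 v0, α (0, v) = v) → (∀ᶠ p in 𝓝 ((0 : Γ), v0), (α p).1 = p.2.1) →
  (∀ γ, fderiv ℂ α (0, v0) (γ, 0) = 0 → γ = 0) →
  ∃ (D' : ℕ) (ι : B × Cv D' → B × Cv D) (κ : B × Cv D → Γ) (ρ : B × Cv D → B × Cv D'),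
    ContDiff ℂ 1 ι ∧ ContDiffAt ℂ 1 κ v0 ∧ ContDiffAt ℂ 1 ρ v0 ∧ ι (ρ v0) = v0 ∧ κ v0 = 0 ∧
    (∀ w, (ι w).1 = w.1) ∧ (∀ᶠ v in 𝓝 v0, α (κ v, ι (ρ v)) = v) ∧
    ∀ᶠ p in 𝓝 ((0 : Γ), ρ v0), ρ (α (p.1, ι p.2)) = p.2

end Vale.Agent.P275MO
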