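import Vale.Agent.P275MO.CLoc
import Vale.Agent.P275MB.Res

/-!
# P275, block MO: solutions of the equation give objects
-/

set_option linter.all false

open scoped Topology Matrix.Norms.Operator ContDiff ComplexConjugate
open Set Filter Metric Matrix

noncomputable section

namespace Vale.Agent.P275MO

open Vale.Agent.P281Z.Hm
open Vale.Agent.P275GC Vale.Agent.P275GC.At
open Vale.Agent.P275NA (Fm Cy Mn db dz Wk fc)
open Vale.Agent.P275KI (WA wa_cd wa_an wa_const)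
open Vale.Agent.P275RR (ex SV ex_O ex_not)

variable {C : Type} [TopologicalSpace C] {n : ℕ} {A : At C} {l : Cy A ℂ} {g : Cy A (Mn n)}
  {i j i0 : Fin A.N} {w ξ ξ0 : ℂ} {ε : ℝ} {χ0 χ : ℂ → ℂ} {X : Mn n} {A0 b : Fm A (Mn n)}

theorem adC_apply (X : Mn n) : adC A g i j w X = g i j w * X * g j i (A.tr i j w) := rfl

theorem adK_apply (X : Mn n) :
    adK A g i j w X = A.d i j w • (g i j w * X * g j i (A.tr i j w)) := rfl

theorem bar_apply (X : Mn n) : bar A (adK A g) i j w X =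
    conj (A.d i j w) • A.d i j w • (g i j w * X * g j i (A.tr i j w)) := rfl

theorem Vb.frm (B : Vb A l g i0 ξ0 ε) {s : Cv B.k} (hs : s ∈ B.W) (i : Fin A.N)
    (hw : w ∈ ball (0 : ℂ) B.r) : Frm (B.sf s i) (B.F s i) w :=
  ⟨(B.sm s).at (ball_subset_ball B.h2 hw) i, (B.Fs s hs i).contDiffAt (isOpen_ball.mem_nhds hw),
    eventually_of_mem (isOpen_ball.mem_nhds hw) fun y hy => B.Fd s hs i y hy⟩

theorem Vb.frm_ev (B : Vb A l g i0 ξ0 ε) {s : Cv B.k} (hs : s ∈ B.W) (i : Fin A.N)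
    (hw : w ∈ ball (0 : ℂ) B.r) : ∀ᶠ y in 𝓝 w, Frm (B.sf s i) (B.F s i) y :=
  eventually_of_mem (isOpen_ball.mem_nhds hw) fun _ hy => B.frm hs i hy

theorem ESec.eq {m : Cy A ℂ} {u : Fm A (Mn n)} (hu : ESec A g m u) (hg : A.Cc g)
    (h : w ∈ A.O i j) : u i w = m i j w • (g i j w * u j (A.tr i j w) * g j i (A.tr i j w)) := by
  rw [← smul_mul_assoc, ← hu i j w h, mul_assoc, hg.inv h, mul_one]

/-- the forms vanish near the pole -/
theorem Vb.van' (B : Vb A l g i0 ξ0 ε) (hg : A.Cc g) (s : Cv B.k) (h : w ∈ A.O i i0)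
    (h' : A.tr i i0 w ∈ ball ξ0 ε) : B.sf s i w = 0 := by
  rw [(B.law s).eq hg h, B.van s _ h', mul_zero, zero_mul, smul_zero]

theorem half_sub (h : 0 < ε) : closedBall ξ0 (ε / 2) ⊆ ball ξ0 ε :=
  closedBall_subset_ball (half_lt_self h)

theorem pos_of (h : ξ ∈ ball ξ0 (ε / 4)) : 0 < ε := by
  have := pos_of_mem_ball h
  linarith

theorem unit_of (he : ‖ξ0‖ + ε < 1) (h : w ∈ closedBall ξ0 ε) : ‖w‖ < 1 := by
  have := norm_le_norm_add_norm_sub' w ξ0
  rw [mem_closedBall, dist_eq_norm] at h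
  linarith

theorem quarter_unit (he : ‖ξ0‖ + ε < 1) (h : ξ ∈ ball ξ0 (ε / 4)) : ‖ξ‖ < 1 :=
  unit_of he (ball_subset_closedBall (ball_subset_ball (by linarith [pos_of h]) h))

theorem s_pp (B : Vb A l g i0 ξ0 ε) (hg : A.Cc g) (hc : Cu ξ0 ε χ0 χ) (he : 0 < ε) (s : Cv B.k) :
    B.sf s i w * pp A g i0 χ0 ξ X i w - pp A g i0 χ0 ξ X i w * B.sf s i w = 0 := by
  by_cases h : w ∈ A.O i i0
  · by_cases h' : A.tr i i0 w ∈ closedBall ξ0 (ε / 2)
    · rw [B.van' hg s h (half_sub he h'), zero_mul, mul_zero, sub_self]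
    · rw [pp, ex_O h, hc.z0 _ h', zero_div, zero_smul, map_zero, zero_mul, mul_zero, sub_self]
  · rw [pp, ex_not h, zero_mul, mul_zero, sub_self]

theorem an_adK (hg : A.Cc g) (h : w ∈ A.O i j) : AnalyticAt ℂ (adK A g i j) w :=
  (an_d h).smul ((((ContinuousLinearMap.mulLeftRight ℂ (Mn n)).analyticAt_bilinear _).comp₂
    (hg.an h) ((hg.an (tr_mem h)).comp (an_tr h))))

/-- weak derivatives of sections in another chart -/
theorem wa_tr (hg : A.Cc g) (h : w ∈ A.O i j) {u G : ℂ → Mn n} (hu : WA u G (A.tr i j w)) :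
    WA (fun y => adK A g i j y (u (A.tr i j y)))
      (fun y => bar A (adK A g) i j y (G (A.tr i j y))) w := by
  refine ((wa_an (an_adK hg h)).app (hu.comp (an_tr h))).congr EventuallyEq.rfl
    (Eventually.of_forall fun y => ?_)
  simp only [ContinuousLinearMap.zero_apply, zero_add, map_smul]
  rfl

theorem tr_ne (h : w ∈ A.O i i0) (hx : (A.e i).symm w ≠ (A.e i0).symm ξ) : A.tr i i0 w ≠ ξ :=
  fun e => hx (by rw [← symm_tr h, e])

theorem db_cut (hc : Cu ξ0 ε χ0 χ) (h : w ∉ closedBall ξ0 (ε / 2)) : db χ0 w = 0 := by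
  have e : χ0 =ᶠ[𝓝 w] fun _ => 0 :=
    eventually_of_mem (isClosed_closedBall.isOpen_compl.mem_nhds h) fun y hy => hc.z0 y hy
  exact (wb_congr e 1).trans (wb_const 0 1 w)

theorem half_R (A : At C) (he : ‖ξ0‖ + ε < 1) (h0 : 0 < ε) :
    closedBall ξ0 (ε / 2) ⊆ ball 0 A.R := fun _ a =>
  mem_of_le (unit_of he (ball_subset_closedBall (half_sub h0 a))).le

theorem wa_pp [T2Space C] (hg : A.Cc g) (he : ‖ξ0‖ + ε < 1) (h0 : 0 < ε) (hc : Cu ξ0 ε χ0 χ)
    (hw : w ∈ off A ((A.e i0).symm ξ) i) :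
    WA (pp A g i0 χ0 ξ X i) (dp A g i0 χ0 ξ X i) w := by
  by_cases h : w ∈ A.O i i0
  · have a : AnalyticAt ℂ (fun y : ℂ => (y - ξ)⁻¹) (A.tr i i0 w) :=
      (analyticAt_id.sub analyticAt_const).inv (sub_ne_zero.2 (tr_ne h hw.2))
    have k := ((wa_cd (hc.s0.contDiffAt.of_le one_le')).smul (wa_an a)).smul (wa_const X)
    refine (wa_tr hg h k).congr (eventually_of_mem (O_nhds h) fun y hy => ?_)
      (eventually_of_mem (O_nhds h) fun y hy => ?_)
    · rw [pp, ex_O hy, div_eq_mul_inv]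
      rfl
    · simp only [dp, ex_O hy, div_eq_mul_inv, smul_eq_mul, mul_zero, add_zero, smul_zero]
  · refine (wa_const (0 : Mn n)).congr
      (P275RR.ev_ind (isCompact_closedBall ξ0 (ε / 2)) (half_R A he h0) (fun y _ a => ?_) hw.1 h)
      (P275RR.ev_ind (isCompact_closedBall ξ0 (ε / 2)) (half_R A he h0) (fun y _ a => ?_) hw.1 h)
    · simp only [hc.z0 _ a, zero_div, zero_smul, map_zero]
    · simp only [db_cut hc a, zero_div, zero_smul, map_zero]

theorem tr_pp (hg : A.Cc g) (hX : X.trace = 0) : (pp A g i0 χ0 ξ X i w).trace = 0 := by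
  by_cases h : w ∈ A.O i i0
  · rw [pp, ex_O h, adK_apply, trace_smul, tr_cj (hg.inv' h), trace_smul, hX, smul_zero, smul_zero]
  · rw [pp, ex_not h, trace_zero]

theorem tr_rt {P σ R : Mn n} (hP : P.det ≠ 0) (hσ : σ.det ≠ 0) : (rt P σ R).trace = R.trace := by
  rw [rt, mul_assoc P, mul_assoc P, tr_cj (nonsing_inv_mul _ (Ne.isUnit hP)),
    tr_cj (nonsing_inv_mul _ (Ne.isUnit hσ))]

theorem rc_adK (hg : A.Cc g) : P275RR.Rc A (adK A g) where
  sm i j z h := cd_an (an_adK hg h)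
  one i z h := by
    ext1 X
    rw [adK_apply, tr_self h, hg.one i z h, A.cc_d.one i z h, one_smul, one_mul, mul_one]
    rfl
  mul i j k z h h' := by
    ext1 X
    have e : g k i (A.tr i k z) = g k j (A.tr i k z) * g j i (A.tr i j z) := by
      rw [hg.mul k j i _ (tr_O h' h) (tr_mem h'), tr_tr h']
    show _ = adK A g i j z (adK A g j k (A.tr i j z) X)
    rw [adK_apply, adK_apply, adK_apply, tr_tr h, e, hg.mul i j k z h h', A.cc_d.mul i j k z h h']
    simp only [mul_smul_comm, smul_mul_assoc, mul_assoc, mul_smul]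

theorem sv_pp (hg : A.Cc g) : SV A (adK A g) (pp A g i0 χ0 ξ X) := P275RR.sv_ex (rc_adK hg)

theorem fc_law {F : Fm A (Mn n)} (h : IsUnit (F i w).det) :
    F i w * fc A F g i j w = g i j w * F j (A.tr i j w) := by
  rw [fc, mul_assoc, mul_nonsing_inv_cancel_left _ _ h]

/-- the polar part has residue `X` -/
theorem tend_pp (hg : A.Cc g) (hc : Cu ξ0 ε χ0 χ) (hξ : ξ ∈ ball ξ0 (ε / 4)) (h : w ∈ A.O i i0)
    (e : A.tr i i0 w = ξ) : Tendsto (fun y => (y - w) • pp A g i0 χ0 ξ X i y) (𝓝[≠] w)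
      (𝓝 (g i i0 w * X * g i0 i ξ)) := by
  have c1 : ContinuousAt (fun y => χ0 (A.tr i i0 y) • adK A g i i0 y X) w :=
    (hc.s0.continuous.continuousAt.comp (an_tr h).continuousAt).smul
      ((an_adK hg h).continuousAt.clm_apply continuousAt_const)
  have c2 := (hasDerivAt_iff_tendsto_slope.1 (has_tr h)).inv₀ (d_ne h)
  have c3 := c2.smul (c1.tendsto.mono_left nhdsWithin_le_nhds)
  rw [e, hc.o0 ξ hξ, one_smul, adK_apply, smul_smul, inv_mul_cancel₀ (d_ne h), one_smul, e] at c3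
  refine c3.congr' (eventually_of_mem (mem_nhdsWithin_of_mem_nhds (O_nhds h)) fun y hy => ?_)
  simp only [pp, ex_O hy, map_smul, smul_smul, slope_def_field, e, inv_div]
  congr 1
  ring

theorem law_bt (hg : A.Cc g) (hA : Ref A g A0) (hb : b i w = adK A g i j w (b j (A.tr i j w)))
    (h : w ∈ A.O i j) (lam : ℂ) : bt A g i0 χ0 A0 lam ξ X b i w * g i j w + lam • deriv (g i j) w -
      A.d i j w • (g i j w * bt A g i0 χ0 A0 lam ξ X b j (A.tr i j w)) =
    (lam * ((n : ℂ)⁻¹ * (deriv (g i j) w * g j i (A.tr i j w)).trace)) • g i j w := by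
  rw [bt, bt, hb, hA.law i j w h, sv_pp hg i j w h]
  simp only [adK_apply, tf, add_mul, sub_mul, mul_add, smul_add, smul_sub, smul_mul_assoc,
    mul_smul_comm, mul_assoc, hg.inv' h, mul_one, one_mul, smul_comm lam (A.d i j w), mul_smul lam]
  abel

theorem frc_id (B : Vb A l g i0 ξ0 ε) (hg : A.Cc g) (hc : Cu ξ0 ε χ0 χ) (he : 0 < ε) {s : Cv B.k}
    {lam : ℂ} : -frc A g i0 χ0 A0 (B.sf s) lam ξ X b i w +
      (lam • db (A0 i) w + dp A g i0 χ0 ξ X i w) +
      (B.sf s i w * (b i w + (lam • A0 i w + pp A g i0 χ0 ξ X i w)) -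
        (b i w + (lam • A0 i w + pp A g i0 χ0 ξ X i w)) * B.sf s i w) -
      lam • dz (B.sf s i) w = 0 := by
  have p := s_pp (i := i) (w := w) (ξ := ξ) (X := X) B hg hc he s
  rw [sub_eq_zero] at p
  simp only [frc, cur, mul_add, add_mul, p, smul_add, smul_sub, mul_smul_comm, smul_mul_assoc]
  abel

theorem canc {P X Y : Mn n} (h : IsUnit P.det) (e : P * X = P * Y) : X = Y := by
  rw [← nonsing_inv_mul_cancel_left P X h, e, nonsing_inv_mul_cancel_left P Y h]

theorem xs_of {r : ℝ} {h1 : 1 < r} {h2 : r ≤ A.R} (hξ : ξ ∈ ball (0 : ℂ) r)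
    (hi : (A.e i0).symm ξ ∈ ((A.res r h1 h2).e i).source) :
    A.e i ((A.e i0).symm ξ) ∈ (A.res r h1 h2).O i i0 ∧ A.tr i i0 (A.e i ((A.e i0).symm ξ)) = ξ :=
  have ξR := ball_subset_ball h2 hξ
  have a := (tr_e (j := i0) (P275MB.src_res.1 hi).1).trans (rinv ξR)
  ⟨res_O.2 ⟨mem_O (P275MB.src_res.1 hi).1 (map_tgt ξR), (P275MB.src_res.1 hi).2, a.symm ▸ hξ⟩, a⟩

theorem cp1 [T2Space C] (n : ℕ) (A : At C) (l : Cy A ℂ) : CP1 n A l := by
  intro g i0 ξ0 ε B χ0 χ A0 b s lam ξ σ R hg he hc hA hs hξ hσ hR hb tb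
  have h0 := pos_of hξ
  have ξr : ξ ∈ ball (0 : ℂ) B.r := P275MB.unit_r B.h1 (quarter_unit he hξ)
  generalize hX : rt (B.F s i0 ξ) σ R = X
  have tX : X.trace = 0 := hX ▸ (tr_rt (B.frm hs i0 ξr).ne hσ).trans hR
  generalize hβ : bt A g i0 χ0 A0 lam ξ X b = β
  have eβ : ∀ i w, β i w = b i w + (lam • A0 i w + pp A g i0 χ0 ξ X i w) := fun i w => hβ ▸ rfl
  have ea : ∀ i, ∀ w ∈ ball (0 : ℂ) B.r, (mkD A g i0 (B.F s) β lam ξ σ R).a i w =
      (B.F s i w)⁻¹ * (lam • dz (B.F s i) w + β i w * B.F s i w) := fun i w hw => by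
    refine tf_of (((B.frm hs i hw).tr_fw _).trans ?_)
    have hw' := ball_subset_ball B.h2 hw
    rw [eβ, trace_add, trace_add, trace_smul, tb i w hw', hA.tr i w hw', tr_pp hg tX]
    simp
  refine ⟨fun i w hw => ?_, fun hw => ?_⟩
  · rw [bk, ea i w hw]
    exact (B.frm hs i hw).bk_fw _
  have cc := (B.bun s hs).cc
  refine ⟨cc, (B.bun s hs).det, fun (i : Fin A.N) w hx => ?_, fun i w _ => tr_tf _,
    fun (i j : Fin A.N) w h hx => ?_, fun (i : Fin A.N) hi => ?_, fun (i j : Fin A.N) hi hj => ?_,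
    fun (i : Fin A.N) hi => ?_⟩
  · have wr : w ∈ ball (0 : ℂ) B.r := hx.1
    have k := (hw i w wr).add ((((wa_cd ((hA.sm.at (ball_subset_ball B.h2 wr) i).of_le
      one_le'))).csmul lam).add (wa_pp (X := X) hg he h0 hc (P275MB.off_res hx)))
    have k2 := ((B.frm hs i wr).fwd (lam := lam) k).an (Eventually.of_forall fun y => ?_)
    · refine (k2.congr (eventually_of_mem (isOpen_ball.mem_nhds wr) fun y hy =>
        ?_)).differentiableAt.differentiableWithinAt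
      rw [ea i y hy, eβ]
    · rw [frc_id B hg hc h0, mul_zero, zero_mul]
  · obtain ⟨a1, a2, a3⟩ := (res_O (A := A) (i := i) (j := j)).1 h
    have k := law_id (lam := lam) (B.frm hs i a2) (B.frm hs j a3) (an_tr a1) (hg.an a1) (cc.an h)
      (eventually_of_mem (isOpen_ball.mem_nhds a2) fun y hy => fc_law (B.frm hs i hy).unit)
      (β i w) (β j (A.tr i j w))
    refine ⟨lam * ((n : ℂ)⁻¹ * (deriv (g i j) w * g j i (A.tr i j w)).trace), ?_⟩
    have e := law_bt (i0 := i0) (χ0 := χ0) (ξ := ξ) (X := X) hg hA (hb i j w a1) a1 lam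
    rw [hβ] at e
    rw [← ea i w a2, ← ea j _ a3, show deriv (A.tr i j) w = A.d i j w from rfl, e, smul_mul_assoc,
      ← fc_law (A := A) (B.frm hs i a2).unit, ← mul_smul_comm _ (B.F s i w)] at k
    exact eq_add_of_sub_eq' (canc (B.frm hs i a2).unit k)
  · exact (Matrix.det_mul _ σ).trans_ne (mul_ne_zero (cc.det.ne (xs_of ξr hi).1) hσ)
  · have k := cc.mul i j i0 _ (mem_O hi hj) (xs_of ξr hi).1
    have k' : fc A (B.F s) g i i0 (A.e i ((A.e i0).symm ξ)) = fc A (B.F s) g i j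
      (A.e i ((A.e i0).symm ξ)) * fc A (B.F s) g j i0 (A.tr i j (A.e i ((A.e i0).symm ξ))) := k
    rw [tr_e (x := (A.e i0).symm ξ) (P275MB.src_res.1 hi).1] at k'
    show fc A (B.F s) g i i0 (A.e i ((A.e i0).symm ξ)) * σ = fc A (B.F s) g i j
      (A.e i ((A.e i0).symm ξ)) * (fc A (B.F s) g j i0 (A.e j ((A.e i0).symm ξ)) * σ)
    rw [k', mul_assoc]
  · obtain ⟨a, e⟩ := xs_of (A := A) (i := i) ξr hi
    obtain ⟨a1, a2, -⟩ := (res_O (A := A) (i := i) (j := i0)).1 a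
    show Tendsto (fun y => (y - A.e i ((A.e i0).symm ξ)) • (mkD A g i0 (B.F s) β lam ξ σ R).a i y)
      (𝓝[≠] (A.e i ((A.e i0).symm ξ))) (𝓝 (fc A (B.F s) g i i0 (A.e i ((A.e i0).symm ξ)) * σ * R *
        (fc A (B.F s) g i i0 (A.e i ((A.e i0).symm ξ)) * σ)⁻¹))
    generalize A.e i ((A.e i0).symm ξ) = w at e a1 a2
    have f := B.frm hs i a2
    have cF : ContinuousAt (B.F s i) w := f.cF.continuousAt
    have cI : ContinuousAt (fun y => (B.F s i y)⁻¹) w := (cd_minv f.cF f.ne).continuousAt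
    have c1 : ContinuousAt (fun y => (y - w) • (lam • dz (B.F s i) y +
        (b i y + lam • A0 i y) * B.F s i y)) w :=
      (continuousAt_id.sub continuousAt_const).smul
        (((cd_dz f.cF (m := 0) one_le').continuousAt.const_smul lam).add
          (((hw i w a2).ct.add ((hA.sm.at a1.1 i).continuousAt.const_smul lam)).mul cF))
    have c2 := (cI.tendsto.mono_left nhdsWithin_le_nhds).mul
      ((c1.tendsto.mono_left nhdsWithin_le_nhds).add ((tend_pp (X := X) hg hc hξ a1 e).mul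
        (cF.tendsto.mono_left nhdsWithin_le_nhds)))
    have e1 : fc A (B.F s) g i i0 w * σ * R * (fc A (B.F s) g i i0 w * σ)⁻¹ =
        (B.F s i w)⁻¹ * (g i i0 w * X * g i0 i ξ * B.F s i w) := by
      have gi : (g i i0 w)⁻¹ = g i0 i ξ := inv_eq_right_inv (e ▸ hg.inv a1)
      simp only [fc, e, ← hX, rt, Matrix.mul_inv_rev, nonsing_inv_nonsing_inv _ f.unit, gi,
        mul_assoc]
    rw [sub_self, zero_smul, zero_add, ← e1] at c2
    refine c2.congr' (eventually_of_mem (mem_nhdsWithin_of_mem_nhds (isOpen_ball.mem_nhds a2))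
      fun y hy => ?_)
    show _ = (y - w) • (mkD A g i0 (B.F s) β lam ξ σ R).a i y
    rw [ea i y hy, eβ]
    simp only [add_mul, mul_add, smul_add, mul_smul_comm, smul_mul_assoc]
    abel

end Vale.Agent.P275MO
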