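import Vale.Agent.P275MO.CP1
import Mathlib.Analysis.Complex.RemovableSingularity

/-!
# P275, block MO: objects give solutions of the equation
-/

set_option linter.all false

open scoped Topology Matrix.Norms.Operator ContDiff ComplexConjugate
open Set Filter Metric Matrix

noncomputable section

namespace Vale.Agent.P275MO

open Vale.Agent.P281Z.Hm
open Vale.Agent.P275GC Vale.Agent.P275GC.At
open Vale.Agent.P275NA (Fm Cy Mn db dz Wk fc)
open Vale.Agent.P275KI (WA wa_cd wa_an wa_const)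
open Vale.Agent.P275RR (ex SV ex_O ex_not)

variable {C : Type} [TopologicalSpace C] {n : ℕ} {A : At C} {l : Cy A ℂ} {g : Cy A (Mn n)}
  {i j i0 : Fin A.N} {w ξ ξ0 : ℂ} {ε : ℝ} {χ0 χ : ℂ → ℂ} {X : Mn n} {A0 b : Fm A (Mn n)}

/-- removable singularities -/
theorem remov {f : ℂ → Mn n} (hd : ∀ᶠ y in 𝓝[≠] w, DifferentiableAt ℂ f y)
    (ht : Tendsto (fun y => (y - w) • f y) (𝓝[≠] w) (𝓝 0)) :
    ∃ f' : ℂ → Mn n, AnalyticAt ℂ f' w ∧ ∀ y, y ≠ w → f' y = f y := by
  obtain ⟨U, hU, h⟩ := mem_nhdsWithin_iff_exists_mem_nhds_inter.1 hd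
  have o : (fun y => f y - f w) =o[𝓝[≠] w] fun y => (y - w)⁻¹ := by
    have t2 : Tendsto (fun y => (y - w) • f w) (𝓝[≠] w) (𝓝 0) := by
      have c : ContinuousAt (fun y : ℂ => (y - w) • f w) w := by fun_prop
      simpa using c.tendsto.mono_left nhdsWithin_le_nhds
    have t3 := (ht.sub t2).norm
    rw [sub_self, norm_zero] at t3
    refine Asymptotics.isLittleO_norm_norm.1 ((Asymptotics.isLittleO_iff_tendsto' ?_).2
      (t3.congr fun y => ?_))
    · filter_upwards [self_mem_nhdsWithin] with y hy a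
      exact absurd (inv_eq_zero.1 (norm_eq_zero.1 a)) (sub_ne_zero.2 hy)
    · rw [← smul_sub, norm_smul, norm_inv, div_inv_eq_mul, mul_comm]
  refine ⟨_, (Complex.differentiableOn_update_limUnder_of_isLittleO hU (fun y hy =>
    (h ⟨hy.1, hy.2⟩).differentiableWithinAt) o).analyticAt hU, fun y hy => ?_⟩
  exact Function.update_of_ne hy _ _

theorem cur_zero {s : Fm A (Mn n)} (h : ∀ᶠ y in 𝓝 w, s i y = 0) : cur A A0 s i w = db (A0 i) w := by
  have e : dz (s i) w = 0 := (wd_congr (g := fun _ => 0) h 1).trans (wd_const 0 1 w)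
  rw [cur, e, h.self_of_nhds, zero_mul, mul_zero, sub_self, add_zero, sub_zero]

theorem Ref.db_law (hA : Ref A g A0) (hg : A.Cc g) (h : w ∈ A.O i j) :
    db (A0 i) w = bar A (adK A g) i j w (db (A0 j) (A.tr i j w)) := by
  have a : AnalyticAt ℂ (fun y => tf (deriv (g i j) y * g j i (A.tr i j y))) w := by
    have a := (hg.an h).deriv.mul ((hg.an (tr_mem h)).comp (an_tr h))
    exact a.sub ((analyticAt_const.mul (an_trace a)).smul analyticAt_const)
  have k := (wa_tr hg h (wa_cd ((hA.sm.at (tr_ball h) j).of_le one_le'))).sub (wa_an a)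
  have k' := (wa_cd ((hA.sm.at h.1 i).of_le one_le')).uniq
    (k.congr (eventually_of_mem (O_nhds h) fun y hy => hA.law i j y hy) EventuallyEq.rfl)
  exact k'.trans (sub_zero _)

theorem dp_zero (hc : Cu ξ0 ε χ0 χ) (h : w ∈ A.O i i0) (h' : A.tr i i0 w ∈ ball ξ0 (ε / 4)) :
    dp A g i0 χ0 ξ X i w = 0 := by
  have e : χ0 =ᶠ[𝓝 (A.tr i i0 w)] fun _ => 1 :=
    eventually_of_mem (isOpen_ball.mem_nhds h') fun y hy => hc.o0 y hy
  have e' : db χ0 (A.tr i i0 w) = 0 := (wb_congr e 1).trans (wb_const 1 1 _)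
  rw [dp, ex_O h, e', zero_div, zero_smul, map_zero]

/-- the equation near the pole -/
theorem frc_near (B : Vb A l g i0 ξ0 ε) (hg : A.Cc g) (hc : Cu ξ0 ε χ0 χ) {s : Cv B.k} {lam : ℂ}
    (h : w ∈ A.O i i0) (h' : A.tr i i0 w ∈ ball ξ0 (ε / 4)) :
    ∀ᶠ y in 𝓝 w, frc A g i0 χ0 A0 (B.sf s) lam ξ X b i y = lam • db (A0 i) y := by
  have h0 := pos_of h'
  have e : ∀ᶠ y in 𝓝 w, y ∈ A.O i i0 ∧ A.tr i i0 y ∈ ball ξ0 (ε / 4) :=
    (eventually_of_mem (O_nhds h) fun _ a => a).and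
      ((an_tr h).continuousAt.eventually (isOpen_ball.mem_nhds h'))
  filter_upwards [e.eventually_nhds] with y hy
  have e0 : ∀ᶠ x in 𝓝 y, B.sf s i x = 0 := hy.mono fun x a =>
    B.van' hg s a.1 (ball_subset_ball (by linarith) a.2)
  rw [frc, cur_zero e0, e0.self_of_nhds, dp_zero hc hy.self_of_nhds.1 hy.self_of_nhds.2, zero_mul,
    mul_zero, sub_self, zero_add, add_zero]

theorem law_of (hg : A.Cc g) (hA : Ref A g A0) (h : w ∈ A.O i j) {β β' : Mn n} {lam c : ℂ}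
    (t : β.trace = 0) (t' : β'.trace = 0)
    (e : β * g i j w + lam • deriv (g i j) w - A.d i j w • (g i j w * β') = c • g i j w) :
    β - lam • A0 i w = adK A g i j w (β' - lam • A0 j (A.tr i j w)) := by
  have e1 : β = adK A g i j w β' + c • 1 - lam • (deriv (g i j) w * g j i (A.tr i j w)) := by
    have k := congrArg (· * g j i (A.tr i j w)) e
    simp only [sub_mul, add_mul, smul_mul_assoc, mul_assoc, hg.inv h, mul_one] at k
    rw [adK_apply, ← k, mul_assoc]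
    abel
  have t2 : (adK A g i j w β').trace = 0 := by
    rw [adK_apply, trace_smul, tr_cj (hg.inv' h), t', smul_zero]
  have e2 := congrArg tf e1
  rw [tf_of t, tf_sub, tf_add, tf_of t2, tf_smul, tf_smul, tf_one, smul_zero, add_zero] at e2
  rw [e2, hA.law i j w h, map_sub, map_smul, smul_sub]
  abel

theorem cp2 [T2Space C] (n : ℕ) (A : At C) (l : Cy A ℂ) : CP2 n A l := by
  intro g i0 ξ0 ε B χ0 χ A0 s r' h1' h2' z hg he hc hA hs hz hx hξ eg
  have h0 := pos_of hξ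
  generalize hξ' : A.e i0 z.x = ξ at hξ ⊢
  have ex' : (A.e i0).symm ξ = z.x := hξ' ▸ (A.e i0).left_inv hx
  have ξr : ξ ∈ ball (0 : ℂ) r' := P275MB.unit_r h1' (quarter_unit he hξ)
  have sb : ball (0 : ℂ) r' ⊆ ball 0 B.r := ball_subset_ball h2'
  have sR : ball (0 : ℂ) r' ⊆ ball 0 A.R := ball_subset_ball (h2'.trans B.h2)
  have hx' : z.x ∈ ((A.res r' h1' (h2'.trans B.h2)).e i0).source := P275MB.src_res.2 ⟨hx, hξ' ▸ ξr⟩
  have tk : ∀ (i : Fin A.N) w, w ∈ off (A.res r' h1' (h2'.trans B.h2)) z.x i →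
      (bk A (B.F s) z i w).trace = 0 := fun i w a =>
    ((B.frm hs i (sb a.1)).tr_bk _).trans (hz.tr i w a)
  have an : ∀ (i : Fin A.N) w, w ∈ off (A.res r' h1' (h2'.trans B.h2)) z.x i →
      AnalyticAt ℂ (z.a i) w := fun i w a =>
    (hz.hol i).analyticAt ((P275MB.off_open z.x _).mem_nhds a)
  have L : ∀ (i j : Fin A.N), ∀ w ∈ (A.res r' h1' (h2'.trans B.h2)).O i j,
      (A.e i).symm w ≠ z.x → bk A (B.F s) z i w - z.lam • A0 i w =
      adK A g i j w (bk A (B.F s) z j (A.tr i j w) - z.lam • A0 j (A.tr i j w)) := by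
    intro i j w h hw
    obtain ⟨a1, a2, a3⟩ := (res_O (A := A) (i := i) (j := j)).1 h
    have f := B.frm hs i (sb a2)
    have f' := B.frm hs j (sb a3)
    have k := law_id (lam := z.lam) f f' (an_tr a1) (hg.an a1) (hz.cc.an h)
      (eventually_of_mem (O_nhds h) fun y hy => (congrArg (B.F s i y * ·) (eg i j y hy)).trans
        (fc_law (B.frm hs i (sb hy.1)).unit)) (bk A (B.F s) z i w) (bk A (B.F s) z j (A.tr i j w))
    obtain ⟨c, e⟩ := hz.law i j w h hw
    have e' : z.a i w * z.g i j w + z.lam • deriv (z.g i j) w -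
      A.d i j w • (z.g i j w * z.a j (A.tr i j w)) = c • z.g i j w := sub_eq_of_eq_add' e
    rw [bk, bk, f.fw_bk, f'.fw_bk, show deriv (A.tr i j) w = A.d i j w from rfl, e', mul_smul_comm,
      eg i j w h, fc_law f.unit, ← smul_mul_assoc] at k
    refine law_of (c := c) hg hA a1 (tk i w ⟨a2, hw⟩) (tk j _ (P275MB.off_tr h hw)) ?_
    have k' := congrArg (· * (B.F s j (A.tr i j w))⁻¹) k
    simp only [mul_nonsing_inv_cancel_right _ _ f'.unit] at k'
    exact k'.symm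
  refine ⟨L, ?_⟩
  generalize hX : rt (B.F s i0 ξ) (z.σ i0) z.R = X
  have f0 := B.frm hs i0 (sb ξr)
  have o0 : ξ ∈ A.O i0 i0 := O_self (sR ξr)
  have t0 : A.tr i0 i0 ξ = ξ := tr_self (sR ξr)
  have nb : ∀ᶠ y in 𝓝 ξ, y ∈ ball (0 : ℂ) r' ∧ y ∈ ball ξ0 (ε / 4) :=
    inter_mem (isOpen_ball.mem_nhds ξr) (isOpen_ball.mem_nhds hξ)
  have aF : AnalyticAt ℂ (B.F s i0) ξ :=
    f0.an (nb.mono fun y a => B.van s y (ball_subset_ball (by linarith) a.2))
  have aI := an_inv aF f0.ne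
  have of0 : ∀ y ∈ ball (0 : ℂ) r', y ≠ ξ → y ∈ off (A.res r' h1' (h2'.trans B.h2)) z.x i0 :=
    fun y a b => ⟨a, fun e => b (by rw [← hξ', ← e]; exact (rinv (sR a)).symm)⟩
  have pol : Tendsto (fun y => (y - ξ) • z.a i0 y) (𝓝[≠] ξ) (𝓝 (z.σ i0 * z.R * (z.σ i0)⁻¹)) :=
    hξ' ▸ hz.pole i0 hx'
  have tX : X.trace = 0 := by
    have c := ((continuous_id.matrix_trace).tendsto _).comp pol
    have c' : Tendsto (fun _ : ℂ => (0 : ℂ)) (𝓝[≠] ξ) (𝓝 (z.σ i0 * z.R * (z.σ i0)⁻¹).trace) := by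
      refine c.congr' ?_
      filter_upwards [nb.filter_mono nhdsWithin_le_nhds, self_mem_nhdsWithin] with y a b
      show ((y - ξ) • z.a i0 y).trace = 0
      rw [trace_smul, hz.tr i0 y (of0 y a.1 b), smul_zero]
    rw [← hX, tr_rt f0.ne (hz.fr i0 hx'), ← tr_cj (nonsing_inv_mul _ (hz.fr i0 hx').isUnit)]
    exact tendsto_nhds_unique c' tendsto_const_nhds
  obtain ⟨f, af, ef⟩ := remov (w := ξ)
    (f := fun y => B.F s i0 y * z.a i0 y * (B.F s i0 y)⁻¹ - (y - ξ)⁻¹ • X) (by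
      filter_upwards [(aF.eventually_analyticAt.and (aI.eventually_analyticAt.and nb)).filter_mono
        nhdsWithin_le_nhds, self_mem_nhdsWithin] with y a b
      exact (((a.1.mul (an i0 y (of0 y a.2.2.1 b))).mul a.2.1).sub (((analyticAt_id.sub
        analyticAt_const).inv (sub_ne_zero.2 b)).smul analyticAt_const)).differentiableAt) (by
      have c := (((aF.continuousAt.tendsto.mono_left nhdsWithin_le_nhds).mul pol).mul
        (aI.continuousAt.tendsto.mono_left nhdsWithin_le_nhds)).sub_const X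
      rw [← mul_assoc, ← mul_assoc, show B.F s i0 ξ * z.σ i0 * z.R * (z.σ i0)⁻¹ * (B.F s i0 ξ)⁻¹ -
        X = 0 from sub_eq_zero.2 hX] at c
      refine c.congr' (eventually_of_mem self_mem_nhdsWithin fun y b => ?_)
      simp only [smul_sub, smul_inv_smul₀ (sub_ne_zero.2 b), mul_smul_comm, smul_mul_assoc])
  classical
  let b0 : ℂ → Mn n := fun y => f y - z.lam • (dz (B.F s i0) y * (B.F s i0 y)⁻¹) - z.lam • A0 i0 y
  let b : Fm A (Mn n) := fun i w => if (A.e i).symm w = z.x then adK A g i i0 w (b0 ξ)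
    else bk A (B.F s) z i w - z.lam • A0 i w - pp A g i0 χ0 ξ X i w
  have b1 : ∀ i w, (A.e i).symm w ≠ z.x →
      b i w = bk A (B.F s) z i w - z.lam • A0 i w - pp A g i0 χ0 ξ X i w := fun i w a => if_neg a
  have b2 : ∀ i w, (A.e i).symm w = z.x → b i w = adK A g i i0 w (b0 ξ) := fun i w a => if_pos a
  have pO : ∀ i, ∀ w ∈ ball (0 : ℂ) A.R, (A.e i).symm w = z.x → w ∈ A.O i i0 ∧ A.tr i i0 w = ξ :=
    fun i w a e => ⟨⟨a, mem_preimage.2 (e.symm ▸ hx)⟩, (congrArg (A.e i0) e).trans hξ'⟩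
  have sv : ∀ (i j : Fin A.N), ∀ w ∈ (A.res r' h1' (h2'.trans B.h2)).O i j,
      b i w = adK A g i j w (b j (A.tr i j w)) := by
    intro i j w h
    obtain ⟨a1, a2, a3⟩ := (res_O (A := A) (i := i) (j := j)).1 h
    by_cases e : (A.e i).symm w = z.x
    · rw [b2 i w e, b2 j _ ((symm_tr a1).trans e), (rc_adK hg).mul i j i0 w a1 (pO i w a1.1 e).1]
      rfl
    · rw [b1 i w e, b1 j _ (fun a => e ((symm_tr a1).symm.trans a)), L i j w h e,
        sv_pp hg i j w a1, ← map_sub]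
  have e0 : ∀ᶠ y in 𝓝 ξ, b i0 y = b0 y := nb.mono fun y a => by
    by_cases e : y = ξ
    · rw [e, b2 i0 ξ ex', (rc_adK hg).one i0 ξ (sR ξr)]
      rfl
    · rw [b1 i0 y (of0 y a.1 e).2, pp, P275RR.ex_self (rc_adK hg) (sR a.1), hc.o0 y a.2, bk]
      simp only [b0, ef y e, sub_mul, smul_mul_assoc, one_div]
      abel
  have aD : AnalyticAt ℂ (fun y => dz (B.F s i0) y * (B.F s i0 y)⁻¹) ξ :=
    (aF.deriv.congr (aF.eventually_analyticAt.mono fun y a =>
      (dz_hol a.differentiableAt).symm)).mul aI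
  have w0 : WA (b i0) (fun y => -(z.lam • db (A0 i0) y)) ξ :=
    (((wa_an af).sub ((wa_an aD).csmul z.lam)).sub
      ((wa_cd ((hA.sm.at (sR ξr) i0).of_le one_le')).csmul z.lam)).congr e0
      (Eventually.of_forall fun y => by simp)
  have t1 : ∀ (i : Fin A.N), ∀ w ∈ ball (0 : ℂ) r', (A.e i).symm w ≠ z.x → (b i w).trace = 0 :=
    fun i w a e => by
      rw [b1 i w e, trace_sub, trace_sub, trace_smul, tk i w ⟨a, e⟩, hA.tr i w (sR a), tr_pp hg tX]
      simp
  have t2 : (b0 ξ).trace = 0 := by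
    have c := (((continuous_id.matrix_trace).tendsto _).comp w0.ct.tendsto).mono_left
      (nhdsWithin_le_nhds (s := {ξ}ᶜ))
    have c' : Tendsto (fun _ : ℂ => (0 : ℂ)) (𝓝[≠] ξ) (𝓝 (b i0 ξ).trace) := by
      refine c.congr' ?_
      filter_upwards [nb.filter_mono nhdsWithin_le_nhds, self_mem_nhdsWithin] with y a b
      exact t1 i0 y a.1 (of0 y a.1 b).2
    rw [← e0.self_of_nhds]
    exact tendsto_nhds_unique c' tendsto_const_nhds
  refine ⟨b, sv, fun (i : Fin A.N) w hw => ?_, fun (i : Fin A.N) w hw => ?_, fun β hβ => ?_⟩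
  · by_cases e : (A.e i).symm w = z.x
    · obtain ⟨a, a'⟩ := pO i w (sR hw) e
      refine ⟨by rw [b2 i w e, adK_apply, trace_smul, tr_cj (hg.inv' a), t2, smul_zero], ?_⟩
      have a2 : w ∈ (A.res r' h1' (h2'.trans B.h2)).O i i0 := res_O.2 ⟨a, hw, a'.symm ▸ ξr⟩
      refine (wa_tr hg a (a'.symm ▸ w0)).congr
        (eventually_of_mem (O_nhds a2) fun y hy => sv i i0 y hy) ?_
      filter_upwards [frc_near (A0 := A0) (ξ := ξ) (X := X) (b := b) (s := s) (lam := z.lam) B hg hc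
        a (a'.symm ▸ hξ), O_nhds a] with y p q
      rw [p, map_neg, map_smul, ← hA.db_law hg q]
    · refine ⟨t1 i w hw e, ?_⟩
      have o : w ∈ off (A.res r' h1' (h2'.trans B.h2)) z.x i := ⟨hw, e⟩
      have k := (((Frm.bwd (lam := z.lam) (B.frm_ev hs i (sb hw)) (an i w o)).sub
        ((wa_cd ((hA.sm.at (sR hw) i).of_le one_le')).csmul z.lam)).sub
        (wa_pp (X := X) hg he h0 hc (ex'.symm ▸ P275MB.off_res o)))
      have ev : ∀ᶠ y in 𝓝 w, (A.e i).symm y ≠ z.x :=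
        eventually_of_mem ((P275MB.off_open z.x _).mem_nhds o) fun y a => a.2
      refine k.congr (ev.mono fun y a => b1 i y a) (ev.mono fun y a => ?_)
      have p := frc_id (i := i) (w := y) (ξ := ξ) (X := X) (A0 := A0) (b := b) (s := s)
        (lam := z.lam) B hg hc h0
      have q : b i y + (z.lam • A0 i y + pp A g i0 χ0 ξ X i y) = bk A (B.F s) z i y := by
        rw [b1 i y a]
        abel
      rw [q, bk] at p
      beta_reduce
      refine sub_eq_zero.1 (Eq.trans ?_ p)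
      abel
  · rw [bt, b1 i w hw.2]
    abel
  · refine ⟨rfl, ex', fun i j w h => (eg i j w h).symm, fun (i : Fin A.N) w hw => ?_,
      fun (i : Fin A.N) hi => ?_, rfl⟩
    · show tf ((B.F s i w)⁻¹ * (z.lam • dz (B.F s i) w + β i w * B.F s i w)) = z.a i w
      rw [hβ i w hw, bk, (B.frm hs i (sb hw.1)).fw_bk, tf_of (hz.tr i w hw)]
    · show fc A (B.F s) g i i0 (A.e i ((A.e i0).symm ξ)) * z.σ i0 = z.σ i
      rw [ex']
      exact (congrArg (· * z.σ i0) (eg i i0 _ (mem_O hi hx'))).symm.trans (hz.frc i i0 hi hx').symm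

end Vale.Agent.P275MO
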