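import Vale.Agent.P275SL.Lku
import Vale.Agent.P275KG.Kur
import Vale.Agent.P275GF.Gf
import Vale.Agent.P275MB.Nice

/-!
# P275, block MO: the Kuranishi theorem from its pieces
-/

set_option linter.all false

noncomputable section

namespace Vale.Agent.P275MO

open Vale.Agent.P275GC
open Vale.Agent.P275NA (Cy)

variable {C : Type} [TopologicalSpace C] {n : ℕ} {A : At C} {l : Cy A ℂ} {d : ℤ}

theorem Std.res (h : Std A l n d) (r : ℝ) (h1 : 1 < r) (h2 : r ≤ A.R) :
    Std (A.res r h1 h2) l n d :=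
  ⟨h.t2, h.cpt, h.conn, h.cc.res, (At.res_deg l).trans h.deg, h.two, h.cop⟩

theorem lku_of (h : Std A l n d) (vb : VB n A l) (cn : CN n A l) : LKU n A l :=
  have := h.t2
  have := h.conn
  P275SL.lku h vb cn (fun _ _ _ => P275GF.gf _ _ _) (fun _ _ _ => P275MB.simp _ _ _)
    fun _ _ _ => P275MB.limh _ _ _

theorem kur_of (h : Std A l n d) (vb : ∀ r h1 h2, VB n (A.res r h1 h2) l)
    (cn : ∀ r h1 h2, CN n (A.res r h1 h2) l) (opst : ∀ r h1 h2, OPST n (A.res r h1 h2) l) :
    KUR n A l :=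
  have := h.t2
  have := h.conn
  P275KG.kur (fun _ _ _ => P275GF.gf _ _ _)
    (fun r h1 h2 => lku_of (h.res r h1 h2) (vb r h1 h2) (cn r h1 h2)) opst

end Vale.Agent.P275MO
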