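import Vale.Agent.P275MO.KDefs
import Vale.Agent.P275KI.Wk
import Vale.Agent.P275RR.Ex

/-!
# P275, block MO: connections on the Kuranishi family of the bundle, pointwise formulas
-/

set_option linter.unusedSectionVars false

open scoped Topology Matrix.Norms.Operator ContDiff ComplexConjugate
open Set Filter Metric Matrix

noncomputable section

namespace Vale.Agent.P275MO

open Vale.Agent.P281Z.Hm (Mx)
open Vale.Agent.P275GC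
open Vale.Agent.P275NA (Fm Cy Mn db dz Wk fc)
open Vale.Agent.P275KI (WA)
open Vale.Agent.P275RR (ex)

variable {C : Type} [TopologicalSpace C] {n : ℕ}

/-- continuous linear maps, for the topologies of the norms -/
abbrev CL (V W : Type) [NormedAddCommGroup V] [NormedSpace ℂ V] [NormedAddCommGroup W]
    [NormedSpace ℂ W] : Type := V →L[ℂ] W

/-- the cocycle of `End E` -/
def adC (A : At C) (g : Cy A (Mn n)) : Cy A (CL (Mn n) (Mn n)) := fun i j w =>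
  ContinuousLinearMap.mulLeftRight ℂ (Mn n) (g i j w) (g j i (A.tr i j w))

/-- the cocycle of `End E ⊗ K` -/
def adK (A : At C) (g : Cy A (Mn n)) : Cy A (CL (Mn n) (Mn n)) := fun i j w =>
  A.d i j w • adC A g i j w

/-- two cut-off functions at `ξ0` -/
structure Cu (ξ0 : ℂ) (ε : ℝ) (χ0 χ : ℂ → ℂ) : Prop where
  s0 : ContDiff ℝ ∞ χ0
  s1 : ContDiff ℝ ∞ χ
  o0 : ∀ w ∈ ball ξ0 (ε / 4), χ0 w = 1
  z0 : ∀ w, w ∉ closedBall ξ0 (ε / 2) → χ0 w = 0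
  o1 : ∀ w ∈ closedBall ξ0 (ε / 2), χ w = 1
  z1 : ∀ w, w ∉ closedBall ξ0 ε → χ w = 0

/-- a smooth trace free projective connection -/
structure Ref (A : At C) (g : Cy A (Mn n)) (A0 : Fm A (Mn n)) : Prop where
  sm : A.Sm ∞ A0
  tr : ∀ i, ∀ w ∈ ball (0 : ℂ) A.R, (A0 i w).trace = 0
  law : ∀ i j, ∀ w ∈ A.O i j,
    A0 i w = adK A g i j w (A0 j (A.tr i j w)) - tf (deriv (g i j) w * g j i (A.tr i j w))

/-- the curvature of `db + s` and `dz + A0` -/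
def cur (A : At C) (A0 s : Fm A (Mn n)) : Fm A (Mn n) := fun i w =>
  db (A0 i) w + (s i w * A0 i w - A0 i w * s i w) - dz (s i) w

/-- the polar part -/
def pp (A : At C) (g : Cy A (Mn n)) (i0 : Fin A.N) (χ0 : ℂ → ℂ) (ξ : ℂ) (X : Mn n) :
    Fm A (Mn n) := ex A (adK A g) i0 fun w => (χ0 w / (w - ξ)) • X

/-- `db` of the polar part -/
def dp (A : At C) (g : Cy A (Mn n)) (i0 : Fin A.N) (χ0 : ℂ → ℂ) (ξ : ℂ) (X : Mn n) :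
    Fm A (Mn n) := ex A (bar A (adK A g)) i0 fun w => (db χ0 w / (w - ξ)) • X

/-- the residue in the frame of `g` -/
def rt (P σ R : Mn n) : Mn n := P * σ * R * σ⁻¹ * P⁻¹

/-- the equation is `db b = - frc` -/
def frc (A : At C) (g : Cy A (Mn n)) (i0 : Fin A.N) (χ0 : ℂ → ℂ) (A0 s : Fm A (Mn n))
    (lam ξ : ℂ) (X : Mn n) (b : Fm A (Mn n)) : Fm A (Mn n) := fun i w =>
  (s i w * b i w - b i w * s i w) + (lam • cur A A0 s i w + dp A g i0 χ0 ξ X i w)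

/-- the connection matrix in the frame of `g` -/
def bt (A : At C) (g : Cy A (Mn n)) (i0 : Fin A.N) (χ0 : ℂ → ℂ) (A0 : Fm A (Mn n))
    (lam ξ : ℂ) (X : Mn n) (b : Fm A (Mn n)) : Fm A (Mn n) := fun i w =>
  b i w + (lam • A0 i w + pp A g i0 χ0 ξ X i w)

/-- the object given by the frames `F` and the connection matrix `β` -/
def mkD (A : At C) (g : Cy A (Mn n)) (i0 : Fin A.N) (F β : Fm A (Mn n)) (lam ξ : ℂ) (σ R : Mn n) :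
    Dat C A.N n :=
  ⟨lam, (A.e i0).symm ξ, fc A F g,
    fun i w => tf ((F i w)⁻¹ * (lam • dz (F i) w + β i w * F i w)),
    fun i => fc A F g i i0 (A.e i ((A.e i0).symm ξ)) * σ, R⟩

/-- the connection matrix of an object in the frame of `g` -/
def bk (A : At C) (F : Fm A (Mn n)) (z : Dat C A.N n) : Fm A (Mn n) := fun i w =>
  (F i w * z.a i w - z.lam • dz (F i) w) * (F i w)⁻¹

/-- the function `1 - χ` on the curve -/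
def cf (A : At C) (i0 : Fin A.N) (χ : ℂ → ℂ) : Fm A ℂ := fun i w =>
  1 - A.ext i0 χ ((A.e i).symm w)

variable (A : At C) (l : Cy A ℂ) (n)

/-- existence of the auxiliary data, transformation laws, dependence on the parameters -/
def CP0 : Prop := ∀ (g : Cy A (Mn n)) (i0 : Fin A.N) (ξ0 : ℂ) (ε : ℝ), A.Cc g → 0 < ε →
  ‖ξ0‖ + ε < 1 → A.Cc (adC A g) ∧ A.Cc (adK A g) ∧
  (∀ m u, ESec A g m u ↔ ∀ i j, ∀ w ∈ A.O i j, u i w = m i j w • adC A g i j w (u j (A.tr i j w))) ∧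
  (∃ χ0 χ, Cu ξ0 ε χ0 χ) ∧ (∃ A0, Ref A g A0) ∧
  (∀ A0 s, Ref A g A0 → A.Sm ∞ s → ESec A g (fun i j w => conj (A.d i j w)) s →
    (∀ i, ∀ w ∈ ball (0 : ℂ) A.R, (s i w).trace = 0) → A.Sm ∞ (cur A A0 s) ∧
      P275RR.SV A (bar A (adK A g)) (cur A A0 s) ∧
      ∀ i, ∀ w ∈ ball (0 : ℂ) A.R, (cur A A0 s i w).trace = 0) ∧
  ∀ χ0 χ, Cu ξ0 ε χ0 χ → A.Sm ∞ (cf A i0 χ) ∧ A.Fn (cf A i0 χ) ∧
    (∀ i ξ X, ∀ w ∈ ball (0 : ℂ) A.R, cf A i0 χ i w • pp A g i0 χ0 ξ X i w = 0) ∧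
    (∀ i, ∀ w ∈ A.O i i0, A.tr i i0 w ∈ ball ξ0 (ε / 2) → cf A i0 χ i w = 0) ∧
    (∃ w ∈ ball (0 : ℂ) 1, ∀ᶠ y in 𝓝 w, cf A i0 χ i0 y = 1) ∧
    (∀ ξ X, P275RR.SV A (adK A g) (pp A g i0 χ0 ξ X) ∧
      P275RR.SV A (bar A (adK A g)) (dp A g i0 χ0 ξ X) ∧ (X.trace = 0 → ∀ i w,
        (pp A g i0 χ0 ξ X i w).trace = 0 ∧ (dp A g i0 χ0 ξ X i w).trace = 0)) ∧
    (∀ i, ContinuousOn (fun p : (ℂ × Mn n) × ℂ => dp A g i0 χ0 p.1.1 p.1.2 i p.2)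
      {p | p.1.1 ∈ ball ξ0 (ε / 4) ∧ p.2 ∈ ball (0 : ℂ) A.R}) ∧
    (∀ i, ContinuousOn (fun p : (ℂ × Mn n) × ℂ => pp A g i0 χ0 p.1.1 p.1.2 i p.2)
      {p | p.1.1 ∈ ball ξ0 (ε / 4) ∧ p.2 ∈ off A ((A.e i0).symm p.1.1) i}) ∧
    (∀ i w (p : ℂ × Mn n), p.1 ∈ ball ξ0 (ε / 4) →
      DifferentiableAt ℂ (fun q : ℂ × Mn n => dp A g i0 χ0 q.1 q.2 i w) p) ∧
    ∀ i (p : ℂ × Mn n), p.1 ∈ ball ξ0 (ε / 4) → ∀ w ∈ off A ((A.e i0).symm p.1) i,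
      DifferentiableAt ℂ (fun q : ℂ × Mn n => pp A g i0 χ0 q.1 q.2 i w) p

/-- solutions of the equation give objects -/
def CP1 : Prop := ∀ (g : Cy A (Mn n)) (i0 : Fin A.N) (ξ0 : ℂ) (ε : ℝ) (B : Vb A l g i0 ξ0 ε)
  (χ0 χ : ℂ → ℂ) (A0 b : Fm A (Mn n)) (s : Cv B.k) (lam ξ : ℂ) (σ R : Mn n), A.Cc g →
  ‖ξ0‖ + ε < 1 → Cu ξ0 ε χ0 χ → Ref A g A0 → s ∈ B.W → ξ ∈ ball ξ0 (ε / 4) → σ.det ≠ 0 →
  R.trace = 0 → P275RR.SV A (adK A g) b → (∀ i, ∀ w ∈ ball (0 : ℂ) A.R, (b i w).trace = 0) →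
  (∀ i, ∀ w ∈ ball (0 : ℂ) B.r, bk A (B.F s) (mkD A g i0 (B.F s)
    (bt A g i0 χ0 A0 lam ξ (rt (B.F s i0 ξ) σ R) b) lam ξ σ R) i w =
      bt A g i0 χ0 A0 lam ξ (rt (B.F s i0 ξ) σ R) b i w) ∧
  ((∀ i, ∀ w ∈ ball (0 : ℂ) B.r, WA (b i)
    (fun y => -frc A g i0 χ0 A0 (B.sf s) lam ξ (rt (B.F s i0 ξ) σ R) b i y) w) →
  Good (A.res B.r B.h1 B.h2) l
    (mkD A g i0 (B.F s) (bt A g i0 χ0 A0 lam ξ (rt (B.F s i0 ξ) σ R) b) lam ξ σ R))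

/-- objects give solutions of the equation -/
def CP2 : Prop := ∀ (g : Cy A (Mn n)) (i0 : Fin A.N) (ξ0 : ℂ) (ε : ℝ) (B : Vb A l g i0 ξ0 ε)
  (χ0 χ : ℂ → ℂ) (A0 : Fm A (Mn n)) (s : Cv B.k) (r' : ℝ) (h1' : 1 < r') (h2' : r' ≤ B.r)
  (z : Dat C A.N n), A.Cc g → ‖ξ0‖ + ε < 1 → Cu ξ0 ε χ0 χ → Ref A g A0 → s ∈ B.W →
  Good (A.res r' h1' (h2'.trans B.h2)) l z → z.x ∈ (A.e i0).source →
  A.e i0 z.x ∈ ball ξ0 (ε / 4) →
  (∀ i j, ∀ w ∈ (A.res r' h1' (h2'.trans B.h2)).O i j, z.g i j w = fc A (B.F s) g i j w) →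
  (∀ i j, ∀ w ∈ (A.res r' h1' (h2'.trans B.h2)).O i j, (A.e i).symm w ≠ z.x →
    bk A (B.F s) z i w - z.lam • A0 i w =
      adK A g i j w (bk A (B.F s) z j (A.tr i j w) - z.lam • A0 j (A.tr i j w))) ∧
  ∃ b : Fm A (Mn n), P275RR.SV (A.res r' h1' (h2'.trans B.h2)) (adK A g) b ∧
    (∀ i, ∀ w ∈ ball (0 : ℂ) r', (b i w).trace = 0 ∧ WA (b i) (fun y => -frc A g i0 χ0 A0 (B.sf s)
      z.lam (A.e i0 z.x) (rt (B.F s i0 (A.e i0 z.x)) (z.σ i0) z.R) b i y) w) ∧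
    (∀ i, ∀ w ∈ off (A.res r' h1' (h2'.trans B.h2)) z.x i, bt A g i0 χ0 A0 z.lam (A.e i0 z.x)
      (rt (B.F s i0 (A.e i0 z.x)) (z.σ i0) z.R) b i w = bk A (B.F s) z i w) ∧
    ∀ β : Fm A (Mn n), (∀ i, ∀ w ∈ off (A.res r' h1' (h2'.trans B.h2)) z.x i,
      β i w = bk A (B.F s) z i w) → Same (A.res r' h1' (h2'.trans B.h2)) z
        (mkD A g i0 (B.F s) β z.lam (A.e i0 z.x) (z.σ i0) z.R)

/-- the obstruction space is killed by the bundle and frame directions -/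
def SUR : Prop := ∀ (z : Dat C A.N n) (i0 : Fin A.N) (ε : ℝ)
  (B : Vb A l z.g i0 (A.e i0 z.x) ε) (χ0 χ : ℂ → ℂ) (u : Fm A (CL (Mn n) ℂ)), Good A l z →
  Stab A l z → z.x ∈ (A.e i0).source → 0 < ε → ‖A.e i0 z.x‖ + ε < 1 → Cu (A.e i0 z.x) ε χ0 χ →
  A.Hl u →
  (∀ i j, ∀ w ∈ A.O i j, (u i w).comp (adK A z.g i j w) = A.d i j w • u j (A.tr i j w)) →
  (∀ (s : Cv B.k) (X : Mn n), A.int (fun i w => u i w
    ((B.sf s i w * z.a i w - z.a i w * B.sf s i w - z.lam • dz (B.sf s i) w) +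
      dp A z.g i0 χ0 (A.e i0 z.x)
        (X * (z.σ i0 * z.R * (z.σ i0)⁻¹) - z.σ i0 * z.R * (z.σ i0)⁻¹ * X) i w)) = 0) →
  ∀ i, ∀ w ∈ ball (0 : ℂ) A.R, ∀ Y, u i w (tf Y) = 0

end Vale.Agent.P275MO
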