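import Vale.Agent.P275MO.CDefs
import Vale.Agent.P275GC.St

/-!
# P275, block MO: local calculus of frames and connection matrices
-/

set_option linter.all false

open scoped Topology Matrix.Norms.Operator ContDiff ComplexConjugate
open Set Filter Metric Matrix

noncomputable section

namespace Vale.Agent.P275MO

open Vale.Agent.P281Z.Hm
open Vale.Agent.P275GC Vale.Agent.P275GC.At
open Vale.Agent.P275NA (Fm Cy Mn db dz Wk fc)
open Vale.Agent.P275KI (WA wa_cd wa_an wa_const)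

variable {n : ℕ} {X Y : Mn n} {w : ℂ}

theorem tf_of (h : X.trace = 0) : tf X = X := by simp [tf, h]

theorem tf_add (X Y : Mn n) : tf (X + Y) = tf X + tf Y := by
  simp only [tf, trace_add, mul_add, add_smul]; abel

theorem tf_smul (c : ℂ) (X : Mn n) : tf (c • X) = c • tf X := by
  simp only [tf, trace_smul, smul_sub, smul_smul, smul_eq_mul]; rw [mul_left_comm]

theorem tf_sub (X Y : Mn n) : tf (X - Y) = tf X - tf Y := by
  simp only [tf, trace_sub, mul_sub, sub_smul]; abel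

theorem tf_one : tf (1 : Mn n) = 0 := by
  rcases Nat.eq_zero_or_pos n with h | h
  · subst h; exact Subsingleton.elim _ _
  · have : (n : ℂ) ≠ 0 := Nat.cast_ne_zero.2 h.ne'
    simp [tf, this]

theorem tr_tf (X : Mn n) : (tf X).trace = 0 := by
  rcases Nat.eq_zero_or_pos n with h | h
  · subst h; simp [trace]
  · have : (n : ℂ) ≠ 0 := Nat.cast_ne_zero.2 h.ne'
    simp only [tf, trace_sub, trace_smul, trace_one, Fintype.card_fin, smul_eq_mul]
    field_simp
    ring

theorem tr_cj {P Q : Mn n} (h : Q * P = 1) (X : Mn n) : (P * X * Q).trace = X.trace := by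
  rw [trace_mul_cycle, h, one_mul]

theorem wa_mul {u G v H : ℂ → Mn n} (h : WA u G w) (h' : WA v H w) :
    WA (fun y => u y * v y) (fun y => G y * v y + u y * H y) w :=
  h.bil (ContinuousLinearMap.mul ℂ (Mn n)) h'

/-- `F` is a frame of determinant one for `db + s` near `w` -/
structure Frm (s F : ℂ → Mn n) (w : ℂ) : Prop where
  cs : ContDiffAt ℝ ∞ s w
  cF : ContDiffAt ℝ ∞ F w
  eq : ∀ᶠ y in 𝓝 w, (F y).det = 1 ∧ db F y + s y * F y = 0

section frame
variable {s F β G a : ℂ → Mn n} {lam : ℂ}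

theorem one_le' : (1 : WithTop ℕ∞) ≤ ∞ := by exact_mod_cast le_top

theorem two_le : (2 : WithTop ℕ∞) ≤ ∞ := WithTop.coe_le_coe.2 (le_top (a := (2 : ℕ∞)))

theorem Frm.ev (h : Frm s F w) : ∀ᶠ y in 𝓝 w, ContDiffAt ℝ 2 s y ∧ ContDiffAt ℝ 2 F y ∧
    (F y).det = 1 ∧ db F y = -(s y * F y) := by
  filter_upwards [(h.cs.of_le two_le).eventually (by simp), (h.cF.of_le two_le).eventually (by simp),
    h.eq] with y a b c
  exact ⟨a, b, c.1, eq_neg_of_add_eq_zero_left c.2⟩

theorem Frm.det (h : Frm s F w) : (F w).det = 1 := h.eq.self_of_nhds.1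

theorem Frm.unit (h : Frm s F w) : IsUnit (F w).det := h.det ▸ isUnit_one

theorem Frm.ne (h : Frm s F w) : (F w).det ≠ 0 := h.unit.ne_zero

theorem Frm.df (h : Frm s F w) : DifferentiableAt ℝ F w := h.cF.differentiableAt (by simp)

theorem Frm.tr_dz (h : Frm s F w) : ((F w)⁻¹ * dz F w).trace = 0 := by
  have e : (fun y => (F y).det) =ᶠ[𝓝 w] fun _ => (1 : ℂ) := h.eq.mono fun _ a => a.1
  have := wd_det h.df h.ne 1
  rw [wd_congr e, h.det, one_mul, wd_const] at this
  exact this.symm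

theorem cd_minv {k : WithTop ℕ∞} {F : ℂ → Mn n} (hF : ContDiffAt ℝ k F w) (h : (F w).det ≠ 0) :
    ContDiffAt ℝ k (fun y => (F y)⁻¹) w :=
  ((an_inv (𝕜 := ℝ) (f := fun X : Mn n => X) analyticAt_id h).contDiffAt).comp w hF

theorem Frm.wa (h : Frm s F w) : WA F (fun y => -(s y * F y)) w :=
  (wa_cd (h.cF.of_le one_le')).congr EventuallyEq.rfl (h.ev.mono fun _ a => a.2.2.2.symm)

theorem Frm.wa_inv (h : Frm s F w) : WA (fun y => (F y)⁻¹) (fun y => (F y)⁻¹ * s y) w := by
  refine (wa_cd (cd_minv (h.cF.of_le one_le') h.ne)).congr EventuallyEq.rfl (h.ev.mono ?_)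
  rintro y ⟨-, b, c, d⟩
  have u : IsUnit (F y).det := c ▸ isUnit_one
  refine ((wb_minv (b.differentiableAt (by simp)) u.ne_zero 1).trans ?_).symm
  rw [show wb 1 F y = _ from d, mul_neg, neg_mul, neg_neg, ← mul_assoc, mul_nonsing_inv_cancel_right _ _ u]

theorem Frm.wa_dz (h : Frm s F w) : WA (dz F) (fun y => -(dz s y * F y + s y * dz F y)) w := by
  refine (wa_cd (cd_dz h.cF (m := 1) two_le)).congr EventuallyEq.rfl (h.ev.eventually_nhds.mono ?_)
  intro y e
  obtain ⟨a, b, -, -⟩ := e.self_of_nhds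
  have e' : wb 1 F =ᶠ[𝓝 y] fun x => -(s x * F x) := e.mono fun _ c => c.2.2.2
  refine ((wd_wb_comm b 1 1).symm.trans ?_).symm
  rw [wd_congr e', wd_neg, wd_mul (a.differentiableAt (by simp)) (b.differentiableAt (by simp))]

/-- the curvature identity -/
theorem Frm.fwd (h : Frm s F w) (hβ : WA β G w) :
    WA (fun y => (F y)⁻¹ * (lam • dz F y + β y * F y))
      (fun y => (F y)⁻¹ * (G y + (s y * β y - β y * s y) - lam • dz s y) * F y) w := by
  refine (wa_mul h.wa_inv ((h.wa_dz.csmul lam).add (wa_mul hβ h.wa))).congr EventuallyEq.rfl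
    (Eventually.of_forall fun y => ?_)
  simp only [mul_add, add_mul, mul_sub, sub_mul, smul_neg, smul_add, mul_neg, mul_smul_comm,
    smul_mul_assoc, mul_assoc]
  abel

theorem Frm.fw_bk (h : Frm s F w) (a : Mn n) :
    (F w)⁻¹ * (lam • dz F w + (F w * a - lam • dz F w) * (F w)⁻¹ * F w) = a := by
  rw [nonsing_inv_mul_cancel_right _ _ h.unit, add_sub_cancel, nonsing_inv_mul_cancel_left _ _ h.unit]

theorem Frm.bk_fw (h : Frm s F w) (β : Mn n) :
    (F w * ((F w)⁻¹ * (lam • dz F w + β * F w)) - lam • dz F w) * (F w)⁻¹ = β := by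
  rw [mul_nonsing_inv_cancel_left _ _ h.unit, add_sub_cancel_left,
    mul_nonsing_inv_cancel_right _ _ h.unit]

theorem Frm.tr_fw (h : Frm s F w) (β : Mn n) :
    ((F w)⁻¹ * (lam • dz F w + β * F w)).trace = β.trace := by
  rw [mul_add, trace_add, mul_smul_comm, trace_smul, h.tr_dz, smul_zero, zero_add, ← mul_assoc,
    tr_cj (mul_nonsing_inv _ h.unit)]

theorem Frm.tr_bk (h : Frm s F w) (a : Mn n) :
    ((F w * a - lam • dz F w) * (F w)⁻¹).trace = a.trace := by
  rw [← h.tr_fw (lam := lam), h.fw_bk]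

theorem Frm.nhds (h : Frm s F w) {U : Set ℂ} (hU : IsOpen U) (hw : w ∈ U)
    (hs : ContDiffOn ℝ ∞ s U) (hF : ContDiffOn ℝ ∞ F U) : ∀ᶠ y in 𝓝 w, Frm s F y := by
  filter_upwards [hU.mem_nhds hw, h.eq.eventually_nhds] with y a b
  exact ⟨hs.contDiffAt (hU.mem_nhds a), hF.contDiffAt (hU.mem_nhds a), b⟩

/-- the converse -/
theorem Frm.bwd (h : ∀ᶠ y in 𝓝 w, Frm s F y) (ha : AnalyticAt ℂ a w) :
    WA (fun y => (F y * a y - lam • dz F y) * (F y)⁻¹) (fun y =>
      lam • dz s y - (s y * ((F y * a y - lam • dz F y) * (F y)⁻¹) -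
        (F y * a y - lam • dz F y) * (F y)⁻¹ * s y)) w := by
  have h0 := h.self_of_nhds
  refine (wa_mul ((wa_mul h0.wa (wa_an ha)).sub (h0.wa_dz.csmul lam)) h0.wa_inv).congr
    EventuallyEq.rfl (h.mono fun y e => ?_)
  have k : dz s y * (F y * (F y)⁻¹) = dz s y := by rw [mul_nonsing_inv _ e.unit, mul_one]
  simp only [mul_add, add_mul, mul_sub, sub_mul, smul_neg, smul_add, mul_neg, neg_mul,
    mul_smul_comm, smul_mul_assoc, mul_assoc, mul_zero, add_zero, k]
  abel

theorem Frm.an (h : Frm s F w) (h0 : ∀ᶠ y in 𝓝 w, s y = 0) : AnalyticAt ℂ F w :=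
  h.wa.an (h0.mono fun y a => by rw [a, zero_mul, neg_zero])

end frame

section law
variable {s F s' F' g g1 : ℂ → Mn n} {τ : ℂ → ℂ} {lam : ℂ}

/-- the transformation law in two kinds of frames -/
theorem law_id (h : Frm s F w) (h' : Frm s' F' (τ w)) (hτ : AnalyticAt ℂ τ w)
    (hg : AnalyticAt ℂ g w) (hg1 : AnalyticAt ℂ g1 w)
    (e : ∀ᶠ y in 𝓝 w, F y * g1 y = g y * F' (τ y)) (β β' : Mn n) :
    F w * ((F w)⁻¹ * (lam • dz F w + β * F w) * g1 w + lam • deriv g1 w -
      deriv τ w • (g1 w * ((F' (τ w))⁻¹ * (lam • dz F' (τ w) + β' * F' (τ w))))) =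
      (β * g w + lam • deriv g w - deriv τ w • (g w * β')) * F' (τ w) := by
  have d1 : DifferentiableAt ℝ g1 w := hg1.differentiableAt.restrictScalars ℝ
  have d2 : DifferentiableAt ℝ g w := hg.differentiableAt.restrictScalars ℝ
  have d3 : DifferentiableAt ℝ (fun y => F' (τ y)) w :=
    h'.df.comp w (hτ.differentiableAt.restrictScalars ℝ)
  have k := wd_congr e 1
  rw [wd_mul h.df d1, wd_mul d2 d3, show wd 1 g1 w = _ from dz_hol hg1.differentiableAt,
    show wd 1 g w = _ from dz_hol hg.differentiableAt,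
    show wd 1 (fun y => F' (τ y)) w = _ from dz_comp h'.df hτ.differentiableAt] at k
  have e0 := e.self_of_nhds
  have k1 : F w * deriv g1 w = deriv g w * F' (τ w) + g w * deriv τ w • dz F' (τ w) -
      dz F w * g1 w := eq_sub_of_add_eq' k
  rw [mul_sub, mul_add, ← mul_assoc (F w), mul_nonsing_inv_cancel_left _ _ h.unit, mul_smul_comm,
    mul_smul_comm, k1, ← mul_assoc (F w), e0, mul_assoc (g w),
    mul_nonsing_inv_cancel_left _ _ h'.unit, add_mul, mul_assoc β, e0]
  simp only [mul_add, add_mul, mul_sub, sub_mul, smul_add, smul_sub, mul_smul_comm,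
    smul_mul_assoc, mul_assoc, smul_comm lam (deriv τ w)]
  abel

end law

end Vale.Agent.P275MO
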