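import Vale.Agent.P275MO.CP2
import Vale.Agent.P275KC.Main
import Vale.Agent.P275KS.Sur
import Vale.Agent.P275K0.Cp0
import Vale.Agent.P275RR.Dol

/-!
# P275, block MO: connections on the Kuranishi family of the bundle
-/

set_option linter.all false

noncomputable section

namespace Vale.Agent.P275MO

open Vale.Agent.P275GC
open Vale.Agent.P275NA (Cy)

variable {C : Type} [TopologicalSpace C] {n : ℕ} {A : At C} {l : Cy A ℂ} {d : ℤ}

theorem cn (h : Std A l n d) : CN n A l :=
  have := h.t2
  have := h.conn
  P275KC.cn h (P275RR.dol A) (P275K0.cp0 A n) (cp1 n A l) (cp2 n A l) (P275KS.sur A l n)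

end Vale.Agent.P275MO
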