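import Vale.Agent.P275NA.Glob

/-!
# P275, block MO: framed logarithmic `λ`-connections, families, moduli spaces: definitions
-/

set_option linter.unusedSectionVars false

open scoped Topology Matrix.Norms.Operator
open Set Filter Metric Matrix

noncomputable section

namespace Vale.Agent.P275MO

open Vale.Agent.P281Z.Hm (Mx)
open Vale.Agent.P275GC

/-- cocycle `g`, connection matrices `a` (coefficient of `dz`, junk at the pole `x`), frame `σ` of
the fibre at `x` (read in the charts which contain `x`), residue `R` in the frame `σ` -/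
structure Dat (C : Type) (N n : ℕ) where
  lam : ℂ
  x : C
  g : Fin N → Fin N → ℂ → Mx (Fin n)
  a : Fin N → ℂ → Mx (Fin n)
  σ : Fin N → Mx (Fin n)
  R : Mx (Fin n)

variable {C : Type} [TopologicalSpace C] {n : ℕ}

/-- the disc of the chart `i` without the point `x` -/
def off (A : At C) (x : C) (i : Fin A.N) : Set ℂ := {w | w ∈ ball (0 : ℂ) A.R ∧ (A.e i).symm w ≠ x}

/-- a bundle with determinant cocycle `l` and a trace free projective `λ`-connection
`λ d + a` with a logarithmic pole at `x` -/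
structure Good (A : At C) (l : Fin A.N → Fin A.N → ℂ → ℂ) (z : Dat C A.N n) : Prop where
  cc : A.Cc z.g
  det : ∀ i j, ∀ w ∈ A.O i j, (z.g i j w).det = l i j w
  hol : ∀ i, DifferentiableOn ℂ (z.a i) (off A z.x i)
  tr : ∀ i, ∀ w ∈ off A z.x i, (z.a i w).trace = 0
  law : ∀ i j, ∀ w ∈ A.O i j, (A.e i).symm w ≠ z.x → ∃ c : ℂ,
    z.a i w * z.g i j w + z.lam • deriv (z.g i j) w =
      A.d i j w • (z.g i j w * z.a j (A.tr i j w)) + c • z.g i j w
  fr : ∀ i, z.x ∈ (A.e i).source → (z.σ i).det ≠ 0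
  frc : ∀ i j, z.x ∈ (A.e i).source → z.x ∈ (A.e j).source →
    z.σ i = z.g i j (A.e i z.x) * z.σ j
  pole : ∀ i, z.x ∈ (A.e i).source → Tendsto (fun w => (w - A.e i z.x) • z.a i w)
    (𝓝[≠] (A.e i z.x)) (𝓝 (z.σ i * z.R * (z.σ i)⁻¹))

/-- the family of subspaces `S` is invariant under the connection -/
def InvC (A : At C) (z : Dat C A.N n) (S : Fin A.N → ℂ → Submodule ℂ (Fin n → ℂ)) : Prop :=
  ∀ i, ∀ w ∈ off A z.x i, ∀ s : ℂ → Fin n → ℂ, AnalyticAt ℂ s w → (∀ᶠ y in 𝓝 w, s y ∈ S i y) →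
    z.lam • deriv s w + z.a i w *ᵥ s w ∈ S i w

/-- slope stability -/
def Stab (A : At C) (l : Fin A.N → Fin A.N → ℂ → ℂ) (z : Dat C A.N n) : Prop :=
  ∀ (k : ℕ) (S : Fin A.N → ℂ → Submodule ℂ (Fin n → ℂ)), 0 < k → k < n →
    P275NA.Sub A z.g k S → InvC A z S → (n : ℝ) * P275NA.degS A z.g k S < k * A.deg l

/-- a horizontal holomorphic map of bundles -/
structure Hom (A : At C) (z z' : Dat C A.N n) (φ : Fin A.N → ℂ → Mx (Fin n)) : Prop where
  lam : z'.lam = z.lam
  x : z'.x = z.x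
  hol : A.Hl φ
  law : ∀ i j, ∀ w ∈ A.O i j, φ i w * z.g i j w = z'.g i j w * φ j (A.tr i j w)
  con : ∀ i, ∀ w ∈ off A z.x i, z.lam • deriv (φ i) w + z'.a i w * φ i w = φ i w * z.a i w

/-- an isomorphism which maps the frame `σ` to `σ' * h` -/
structure IsoBy (A : At C) (z z' : Dat C A.N n) (φ : Fin A.N → ℂ → Mx (Fin n)) (h : Mx (Fin n)) :
    Prop extends Hom A z z' φ where
  det : ∀ i, ∀ w ∈ ball (0 : ℂ) A.R, (φ i w).det ≠ 0
  fr : ∀ i, z.x ∈ (A.e i).source → φ i (A.e i z.x) * z.σ i = z'.σ i * h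

/-- isomorphic, the frames agree up to the group of units of `H` -/
def Iso (A : At C) (H : Subalgebra ℂ (Mx (Fin n))) (z z' : Dat C A.N n) : Prop :=
  ∃ (r : ℝ) (h1 : 1 < r) (h2 : r ≤ A.R) (φ : Fin A.N → ℂ → Mx (Fin n)) (h : Mx (Fin n)),
    h ∈ H ∧ IsoBy (A.res r h1 h2) z z' φ h

/-- stable objects with residue in `q`, on discs of some radius -/
def IsOb (A : At C) (l : Fin A.N → Fin A.N → ℂ → ℂ) (q : Submodule ℂ (Mx (Fin n)))
    (z : Dat C A.N n) : Prop :=
  (∃ (r : ℝ) (h1 : 1 < r) (h2 : r ≤ A.R), Good (A.res r h1 h2) l z ∧ Stab (A.res r h1 h2) l z) ∧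
    z.R ∈ q

/-- a continuous family over `V`, on the discs of `A` -/
structure FamOn (A : At C) (l : Fin A.N → Fin A.N → ℂ → ℂ) {T : Type} [TopologicalSpace T]
    (F : T → Dat C A.N n) (V : Set T) : Prop where
  good : ∀ t ∈ V, Good A l (F t)
  lam : ContinuousOn (fun t => (F t).lam) V
  x : ContinuousOn (fun t => (F t).x) V
  R : ContinuousOn (fun t => (F t).R) V
  g : ∀ i j, ContinuousOn (fun p : T × ℂ => (F p.1).g i j p.2) (V ×ˢ A.O i j)
  a : ∀ i, ContinuousOn (fun p : T × ℂ => (F p.1).a i p.2) {p | p.1 ∈ V ∧ p.2 ∈ off A (F p.1).x i}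
  σ : ∀ i, ContinuousOn (fun t => (F t).σ i) {t | t ∈ V ∧ (F t).x ∈ (A.e i).source}

/-- a continuous family near `t` -/
def FamAt (A : At C) (l : Fin A.N → Fin A.N → ℂ → ℂ) {T : Type} [TopologicalSpace T]
    (F : T → Dat C A.N n) (t : T) : Prop :=
  ∃ (r : ℝ) (h1 : 1 < r) (h2 : r ≤ A.R), ∃ V ∈ 𝓝 t, FamOn (A.res r h1 h2) l F V

/-- a holomorphic family over `W` -/
structure HFamOn (A : At C) (l : Fin A.N → Fin A.N → ℂ → ℂ) {E : Type} [NormedAddCommGroup E]
    [NormedSpace ℂ E] (F : E → Dat C A.N n) (W : Set E) : Prop extends FamOn A l F W where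
  hlam : DifferentiableOn ℂ (fun t => (F t).lam) W
  hx : ∀ i, DifferentiableOn ℂ (fun t => A.e i (F t).x) {t | t ∈ W ∧ (F t).x ∈ (A.e i).source}
  hR : DifferentiableOn ℂ (fun t => (F t).R) W
  hg : ∀ i j, DifferentiableOn ℂ (fun p : E × ℂ => (F p.1).g i j p.2) (W ×ˢ A.O i j)
  ha : ∀ i, DifferentiableOn ℂ (fun p : E × ℂ => (F p.1).a i p.2)
    {p | p.1 ∈ W ∧ p.2 ∈ off A (F p.1).x i}
  hσ : ∀ i, DifferentiableOn ℂ (fun t => (F t).σ i) {t | t ∈ W ∧ (F t).x ∈ (A.e i).source}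

/-- the type of a moduli problem: frames modulo the units of `H`, residues in `q`, and a linear
invariant `η` of the residue -/
structure Ty (n : ℕ) where
  H : Subalgebra ℂ (Mx (Fin n))
  q : Submodule ℂ (Mx (Fin n))
  m : ℕ
  η : Mx (Fin n) →ₗ[ℂ] (Fin m → ℂ)
  tr : ∀ R ∈ q, R.trace = 0
  conj : ∀ h ∈ H, h.det ≠ 0 → ∀ R ∈ q, h * R * h⁻¹ ∈ q ∧ η (h * R * h⁻¹) = η R
  onto : ∀ y, ∃ R ∈ q, η R = y

variable (A : At C) (l : Fin A.N → Fin A.N → ℂ → ℂ) (τ : Ty n)

/-- stable objects -/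
def Ob : Type := {z : Dat C A.N n // IsOb A l τ.q z}

/-- the moduli space -/
def Mod : Type := Quot fun z z' : Ob A l τ => Iso A τ.H z.1 z'.1

variable {A l τ}

/-- the point of the moduli space given by an object -/
def Ob.pt (z : Ob A l τ) : Mod A l τ := Quot.mk _ z

/-- the finest topology for which continuous families give continuous maps -/
instance : TopologicalSpace (Mod A l τ) where
  IsOpen W := ∀ (T : Type) [TopologicalSpace T] (F : T → Ob A l τ) (t : T),
    FamAt A l (fun s => (F s).1) t → (F t).pt ∈ W → ∀ᶠ s in 𝓝 t, (F s).pt ∈ W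
  isOpen_univ := fun _ _ _ _ _ _ => Eventually.of_forall fun _ => mem_univ _
  isOpen_inter := by
    intro _ _ hs ht T _ F t hF h
    exact (hs T F t hF h.1).and (ht T F t hF h.2)
  isOpen_sUnion := by
    intro _ hS T _ F t hF ⟨W, hW, h⟩
    exact (hS W hW T F t hF h).mono fun _ a => ⟨W, hW, a⟩

theorem isOpen_iff {W : Set (Mod A l τ)} : IsOpen W ↔
    ∀ (T : Type) [TopologicalSpace T] (F : T → Ob A l τ) (t : T),
      FamAt A l (fun s => (F s).1) t → (F t).pt ∈ W → ∀ᶠ s in 𝓝 t, (F s).pt ∈ W := Iff.rfl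

/-- families give continuous maps -/
theorem FamAt.continuousAt {T : Type} [TopologicalSpace T] {F : T → Ob A l τ} {t : T}
    (h : FamAt A l (fun s => (F s).1) t) : ContinuousAt (fun s => (F s).pt) t :=
  fun W hW => by
    obtain ⟨U, hU, ho, hm⟩ := mem_nhds_iff.1 hW
    exact (ho T F t h hm).mono fun _ a => hU a

/-- maps out of the moduli space are continuous if they are so on families -/
theorem continuous_of_fam {Y : Type*} [TopologicalSpace Y] {f : Mod A l τ → Y}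
    (h : ∀ (T : Type) [TopologicalSpace T] (F : T → Ob A l τ) (t : T),
      FamAt A l (fun s => (F s).1) t → ContinuousAt (fun s => f (F s).pt) t) : Continuous f :=
  continuous_def.2 fun _ hU T _ F t hF hm => h T F t hF (hU.mem_nhds hm)

theorem pt_surj (y : Mod A l τ) : ∃ z : Ob A l τ, z.pt = y := Quot.exists_rep y

/-- a representative -/
def Mod.rep (y : Mod A l τ) : Ob A l τ := (pt_surj y).choose

theorem Mod.pt_rep (y : Mod A l τ) : y.rep.pt = y := (pt_surj y).choose_spec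

/-- the parameter `λ` -/
def Mod.lam : Mod A l τ → ℂ := Quot.lift (fun z => z.1.lam)
  fun _ _ ⟨_, _, _, _, _, _, h⟩ => h.lam.symm

/-- the pole -/
def Mod.x : Mod A l τ → C := Quot.lift (fun z => z.1.x) fun _ _ ⟨_, _, _, _, _, _, h⟩ => h.x.symm

/-- the invariant of the residue -/
def Mod.η (y : Mod A l τ) : Fin τ.m → ℂ := τ.η y.rep.1.R

/-- scaling -/
def Dat.smul {N : ℕ} (s : ℂ) (z : Dat C N n) : Dat C N n :=
  ⟨s * z.lam, z.x, z.g, fun i w => s • z.a i w, z.σ, s • z.R⟩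

/-- change of the frame -/
def Dat.act {N : ℕ} (z : Dat C N n) (h : Mx (Fin n)) : Dat C N n :=
  ⟨z.lam, z.x, z.g, z.a, fun i => z.σ i * h, h⁻¹ * z.R * h⟩

/-- the standing hypotheses: `C` compact connected, `l` a cocycle of degree `d` prime to `n` -/
structure Std (A : At C) (l : Fin A.N → Fin A.N → ℂ → ℂ) (n : ℕ) (d : ℤ) : Prop where
  t2 : T2Space C
  cpt : CompactSpace C
  conn : ConnectedSpace C
  cc : A.Cc l
  deg : A.deg l = d
  two : 2 ≤ n
  cop : IsCoprime (n : ℤ) d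

end Vale.Agent.P275MO
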