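import Vale.Agent.P275MO.CP1
import Vale.Agent.P275IN.Fam
import Vale.Agent.P275GF.Gf

/-!
# P275, block MO: the holomorphic frames of the Kuranishi family of a bundle
-/

set_option linter.all false

open scoped Topology Matrix.Norms.Operator ContDiff ComplexConjugate BoundedContinuousFunction
open Set Filter Metric Matrix

noncomputable section

namespace Vale.Agent.P275MO

open Vale.Agent.P281Z.Hm
open Vale.Agent.P275GC Vale.Agent.P275GC.At
open Vale.Agent.P275NA (Fm Cy Mn db dz Wk fc)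
open Vale.Agent.P275KI (WA wa_cd wa_an wa_const)

variable {C : Type} [TopologicalSpace C] {n k : ℕ} {A : At C} {l : Cy A ℂ} {g : Cy A (Mn n)}
  {i j : Fin A.N} {w : ℂ} {r : ℝ} {h1 : 1 < r} {h2 : r ≤ A.R}

/-- frames for the operators `db + sf s`, `s ∈ W` -/
structure Frs (A : At C) (l : Cy A ℂ) (g0 : Cy A (Mn n)) (sf : Cv k →ₗ[ℂ] Fm A (Mn n)) (r : ℝ)
    (h1 : 1 < r) (h2 : r ≤ A.R) (W : Set (Cv k)) (F : Cv k → Fm A (Mn n)) : Prop where
  op : IsOpen W
  zero : 0 ∈ W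
  F0 : ∀ i, ∀ w ∈ ball (0 : ℂ) r, F 0 i w = 1
  Fs : ∀ s ∈ W, ∀ i, ContDiffOn ℝ ∞ (F s i) (ball 0 r)
  Fd : ∀ s ∈ W, ∀ i, ∀ w ∈ ball (0 : ℂ) r,
    (F s i w).det = 1 ∧ db (F s i) w + sf s i w * F s i w = 0
  Fc : ∀ i, ContinuousOn (fun p : Cv k × ℂ => F p.1 i p.2) (W ×ˢ ball 0 r)
  Pc : ∀ i, ContinuousOn (fun p : Cv k × ℂ => dz (F p.1 i) p.2) (W ×ˢ ball 0 r)
  Fh : ∀ i, ∀ w ∈ ball (0 : ℂ) r, DifferentiableOn ℂ (fun s => F s i w) W
  Ph : ∀ i, ∀ w ∈ ball (0 : ℂ) r, DifferentiableOn ℂ (fun s => dz (F s i) w) W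
  bun : ∀ s ∈ W, Bun (A.res r h1 h2) l (fc A (F s) g0)
  hg : ∀ i j, DifferentiableOn ℂ (fun p : Cv k × ℂ => fc A (F p.1) g0 i j p.2)
    (W ×ˢ (A.res r h1 h2).O i j)

theorem Frs.mono {sf : Cv k →ₗ[ℂ] Fm A (Mn n)} {W W' : Set (Cv k)} {F : Cv k → Fm A (Mn n)}
    (h : Frs A l g sf r h1 h2 W F) (o : IsOpen W') (z : 0 ∈ W') (m : W' ⊆ W) :
    Frs A l g sf r h1 h2 W' F :=
  ⟨o, z, h.F0, fun s a => h.Fs s (m a), fun s a => h.Fd s (m a),
    fun i => (h.Fc i).mono (prod_mono m subset_rfl), fun i => (h.Pc i).mono (prod_mono m subset_rfl),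
    fun i w a => (h.Fh i w a).mono m, fun i w a => (h.Ph i w a).mono m, fun s a => h.bun s (m a),
    fun i j => (h.hg i j).mono (prod_mono m subset_rfl)⟩

theorem Frs.frm {sf : Cv k →ₗ[ℂ] Fm A (Mn n)} {W : Set (Cv k)} {F : Cv k → Fm A (Mn n)}
    (h : Frs A l g sf r h1 h2 W F) (sm : ∀ s, A.Sm ∞ (sf s)) {s : Cv k} (hs : s ∈ W) (i : Fin A.N)
    (hw : w ∈ ball (0 : ℂ) r) : Frm (sf s i) (F s i) w :=
  ⟨(sm s).at (ball_subset_ball h2 hw) i, (h.Fs s hs i).contDiffAt (isOpen_ball.mem_nhds hw),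
    eventually_of_mem (isOpen_ball.mem_nhds hw) fun y hy => h.Fd s hs i y hy⟩

/-- the composition of a smooth trivialisation, a solution and a frame is holomorphic -/
theorem tr_hol {Θ α u s F : ℂ → Mn n} (hΘ : WA Θ (fun y => Θ y * α y) w)
    (hu : WA u (fun y => -(α y * u y - u y * s y)) w) (hF : Frm s F w) :
    AnalyticAt ℂ (fun y => Θ y * u y * F y) w := by
  refine (wa_mul (wa_mul hΘ hu) hF.wa).an (Eventually.of_forall fun y => ?_)
  simp only [mul_neg, mul_sub, sub_mul, add_mul, neg_mul, mul_assoc]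
  abel

/-- the cocycle in the new frames is holomorphic -/
theorem an_fc {s F : Fm A (Mn n)} (hg : A.Cc g) (hs : ESec A g (fun i j w => conj (A.d i j w)) s)
    (h : w ∈ A.O i j) (f : Frm (s i) (F i) w) (f' : Frm (s j) (F j) (A.tr i j w)) :
    AnalyticAt ℂ (fc A F g i j) w := by
  refine (wa_mul (wa_mul f.wa_inv (wa_an (hg.an h))) (f'.wa.comp (an_tr h))).an
    (eventually_of_mem (O_nhds h) fun y hy => ?_)
  have e : s i y * g i j y = conj (deriv (A.tr i j) y) • (g i j y * s j (A.tr i j y)) := hs i j y hy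
  simp only [mul_zero, add_zero, mul_assoc (F i y)⁻¹, e, smul_neg, mul_neg, mul_smul_comm,
    smul_mul_assoc, mul_assoc, add_neg_cancel]

theorem bun_of_frm {s F : Fm A (Mn n)} (hg : Bun A l g)
    (hs : ESec A g (fun i j w => conj (A.d i j w)) s)
    (f : ∀ i, ∀ w ∈ ball (0 : ℂ) r, Frm (s i) (F i) w) : Bun (A.res r h1 h2) l (fc A F g) := by
  refine ⟨⟨fun (i j : Fin A.N) w h => ?_, fun (i : Fin A.N) w (h : w ∈ ball (0 : ℂ) r) => ?_,
    fun (i j m : Fin A.N) w h h' => ?_⟩, fun (i j : Fin A.N) w h => ?_⟩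
  · obtain ⟨a, b, c⟩ := (res_O (A := A) (i := i) (j := j)).1 h
    exact (an_fc hg.cc hs a (f i w b) (f j _ c)).differentiableAt.differentiableWithinAt
  · have a := ball_subset_ball h2 h
    rw [fc, tr_self a, hg.cc.one i w a, mul_one, nonsing_inv_mul _ (f i w h).unit]
  · obtain ⟨a, b, c⟩ := (res_O (A := A) (i := i) (j := j)).1 h
    obtain ⟨a', -, -⟩ := (res_O (A := A) (i := i) (j := m)).1 h'
    show fc A F g i m w = fc A F g i j w * fc A F g j m (A.tr i j w)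
    simp only [fc, tr_tr a, hg.cc.mul i j m w a a', mul_assoc,
      mul_nonsing_inv_cancel_left _ _ (f j _ c).unit]
  · obtain ⟨a, b, c⟩ := (res_O (A := A) (i := i) (j := j)).1 h
    rw [fc, Matrix.det_mul, Matrix.det_mul, det_nonsing_inv, (f i w b).det, (f j _ c).det,
      hg.det i j w a, Ring.inverse_one, one_mul, mul_one]

theorem joint_bc {T : Type} [TopologicalSpace T] {P : T → closedBall (0 : ℂ) r →ᵇ Mn n}
    {G : T → ℂ → Mn n} {W : Set T} (hP : ContinuousOn P W)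
    (e : ∀ s ∈ W, ∀ w (hw : w ∈ ball (0 : ℂ) r), P s ⟨w, ball_subset_closedBall hw⟩ = G s w) :
    ContinuousOn (fun p : T × ℂ => G p.1 p.2) (W ×ˢ ball 0 r) := by
  rw [continuousOn_iff_continuous_restrict]
  have c1 : Continuous fun p : (W ×ˢ ball (0 : ℂ) r : Set (T × ℂ)) => P p.1.1 :=
    hP.comp_continuous (continuous_fst.comp continuous_subtype_val) fun p => p.2.1
  have c2 : Continuous fun p : (W ×ˢ ball (0 : ℂ) r : Set (T × ℂ)) =>
      (⟨p.1.2, ball_subset_closedBall p.2.2⟩ : closedBall (0 : ℂ) r) :=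
    (continuous_snd.comp continuous_subtype_val).subtype_mk _
  exact (continuous_eval.comp (c1.prodMk c2)).congr fun p => e _ p.2.1 _ p.2.2

theorem df_bc {E : Type} [NormedAddCommGroup E] [NormedSpace ℂ E]
    {P : E → closedBall (0 : ℂ) r →ᵇ Mn n} {W : Set E} (hP : DifferentiableOn ℂ P W)
    (x : closedBall (0 : ℂ) r) : DifferentiableOn ℂ (fun s => P s x) W :=
  ((BoundedContinuousFunction.evalCLM ℂ x : CL (closedBall (0 : ℂ) r →ᵇ Mn n) (Mn n))).differentiable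
    |>.comp_differentiableOn hP

theorem df_fc (hg : A.Cc g) {sf : Cv k →ₗ[ℂ] Fm A (Mn n)} {G : Fin A.N → Cv k → ℂ → Mn n}
    {W : Set (Cv k)} (law : ∀ s, ESec A g (fun i j w => conj (A.d i j w)) (sf s)) (o : IsOpen W)
    (fr : ∀ s ∈ W, ∀ i, ∀ w ∈ ball (0 : ℂ) r, Frm (sf s i) (G i s) w)
    (Fc : ∀ i, ContinuousOn (fun p : Cv k × ℂ => G i p.1 p.2) (W ×ˢ ball 0 r))
    (Fh : ∀ i, ∀ w ∈ ball (0 : ℂ) r, DifferentiableOn ℂ (fun s => G i s w) W) (i j : Fin A.N) :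
    DifferentiableOn ℂ (fun p : Cv k × ℂ => fc A (fun i => G i p.1) g i j p.2)
      (W ×ˢ (A.res r h1 h2).O i j) := by
  have m : ∀ w ∈ (A.res r h1 h2).O i j, w ∈ A.O i j ∧ w ∈ ball (0 : ℂ) r ∧
    A.tr i j w ∈ ball (0 : ℂ) r := fun w a => (res_O (A := A) (i := i) (j := j)).1 a
  have oo : IsOpen ((A.res r h1 h2).O i j) := O_open _ _
  generalize (A.res r h1 h2).O i j = O at m oo
  have c1 : ContinuousOn (fun p : Cv k × ℂ => (G i p.1 p.2)⁻¹) (W ×ˢ O) :=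
    P275GF.cw_inv ((Fc i).mono (prod_mono subset_rfl fun w a => (m w a).2.1))
      fun p a => (fr _ a.1 i _ (m _ a.2).2.1).ne
  have c2 : ContinuousOn (fun p : Cv k × ℂ => g i j p.2) (W ×ˢ O) :=
    (hg.hol i j).continuousOn.comp continuousOn_snd fun p a => (m _ a.2).1
  have c3 : ContinuousOn (fun p : Cv k × ℂ => (p.1, A.tr i j p.2)) (W ×ˢ O) :=
    continuousOn_fst.prodMk ((A.hol i j).continuousOn.comp continuousOn_snd fun p a => (m _ a.2).1)
  have c4 : ContinuousOn (fun p : Cv k × ℂ => G j p.1 (A.tr i j p.2)) (W ×ˢ O) :=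
    (Fc j).comp c3 fun p a => ⟨a.1, (m _ a.2).2.2⟩
  refine P275GF.osg (o.prod oo) ((c1.mul c2).mul c4) (fun p a => ?_) fun p a => ?_
  · have d1 : DifferentiableOn ℂ (fun s => (G i s p.2)⁻¹) W :=
      P275GF.dw_inv (Fh i _ (m _ a.2).2.1) fun s b => (fr _ b i _ (m _ a.2).2.1).ne
    exact ((d1.mul_const (g i j p.2)).mul (Fh j _ (m _ a.2).2.2)).differentiableAt (o.mem_nhds a.1)
  · exact (an_fc (F := fun i => G i p.1) hg (law p.1) (m _ a.2).1 (fr _ a.1 i _ (m _ a.2).2.1)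
      (fr _ a.1 j _ (m _ a.2).2.2)).differentiableAt

/-- existence of the frames -/
theorem ex_frs (hg : Bun A l g) (sf : Cv k →ₗ[ℂ] Fm A (Mn n)) (sm : ∀ s, A.Sm ∞ (sf s))
    (law : ∀ s, ESec A g (fun i j w => conj (A.d i j w)) (sf s))
    (tr : ∀ s i, ∀ w ∈ ball (0 : ℂ) A.R, (sf s i w).trace = 0) (h1 : 1 < r) (h2 : r < A.R) :
    ∃ W F, Frs A l g sf r h1 h2.le W F := by
  choose F P G aF aP F0 P0 ev using fun i : Fin A.N => P275IN.hint n (Cv k)
    ((LinearMap.proj i).comp sf) r A.R h2 (fun s => sm s i) (fun s => tr s i)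
  obtain ⟨W, hW, o, z⟩ := _root_.eventually_nhds_iff.1 (eventually_all.2 fun i =>
    (ev i).and ((aF i).eventually_analyticAt.and (aP i).eventually_analyticAt))
  have dF : ∀ i, DifferentiableOn ℂ (F i) W := fun i s a =>
    (hW s a i).2.1.differentiableAt.differentiableWithinAt
  have dP : ∀ i, DifferentiableOn ℂ (P i) W := fun i s a =>
    (hW s a i).2.2.differentiableAt.differentiableWithinAt
  have fr : ∀ s ∈ W, ∀ i, ∀ w ∈ ball (0 : ℂ) r, Frm (sf s i) (G i s) w := fun s a i w hw =>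
    ⟨(sm s).at (ball_subset_ball h2.le hw) i, (hW s a i).1.1.contDiffAt (isOpen_ball.mem_nhds hw),
      eventually_of_mem (isOpen_ball.mem_nhds hw) fun y hy => ((hW s a i).1.2.2 y hy).2⟩
  have Fc : ∀ i, ContinuousOn (fun p : Cv k × ℂ => G i p.1 p.2) (W ×ˢ ball 0 r) := fun i =>
    joint_bc (dF i).continuousOn fun s a w hw => (hW s a i).1.2.1 _
  have Fh : ∀ i, ∀ w ∈ ball (0 : ℂ) r, DifferentiableOn ℂ (fun s => G i s w) W := fun i w hw =>
    (df_bc (dF i) ⟨w, ball_subset_closedBall hw⟩).congr fun s a =>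
      ((hW s a i).1.2.1 ⟨w, ball_subset_closedBall hw⟩).symm
  refine ⟨W, fun s i => G i s, o, z, fun i w hw => ?_, fun s a i => (hW s a i).1.1,
    fun s a i w hw => ((hW s a i).1.2.2 w hw).2, Fc,
    fun i => joint_bc (G := fun s => dz (G i s)) (dP i).continuousOn
      fun s a w hw => ((hW s a i).1.2.2 w hw).1,
    Fh, fun i w hw => (df_bc (dP i) ⟨w, ball_subset_closedBall hw⟩).congr
      fun s a => ((hW s a i).1.2.2 w hw).1.symm,
    fun s a => bun_of_frm hg (law s) (fr s a), fun (i j : Fin A.N) => ?_⟩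
  · rw [← (hW 0 z i).1.2.1 ⟨w, ball_subset_closedBall hw⟩, F0]
    rfl
  · exact df_fc hg.cc law o fr Fc Fh i j

end Vale.Agent.P275MO
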