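import Vale.Agent.P275KG.Kur
import Vale.Agent.P275GF.Gf
import Vale.Agent.P275LM.Fin
import Vale.Agent.P275OS.Fin
import Vale.Agent.P275MB.Lim

/-!
# P275, block MO: stability is open
-/

set_option linter.all false

open scoped Topology Matrix.Norms.Operator
open Set Filter Metric Matrix

noncomputable section

namespace Vale.Agent.P275MO

open Vale.Agent.P275GC Vale.Agent.P275GC.At
open Vale.Agent.P275NA (Fm Cy Mn fc)

/-- iterated limits -/
theorem iter0 {S T Z : Type} [TopologicalSpace Z] {a : Filter S} {b : Filter T}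
    {u : S → T → Z} {v : S → Z} {c : Z} (h1 : Tendsto v a (𝓝 c))
    (h2 : ∀ᶠ s in a, Tendsto (u s) b (𝓝 (v s))) :
    Tendsto (fun q : S × T => u q.1 q.2) (a.curry b) (𝓝 c) := by
  refine (nhds_basis_opens c).tendsto_right_iff.2 fun U hU => eventually_curry_iff.2 ?_
  filter_upwards [h1.eventually (hU.2.mem_nhds hU.1), h2] with s p q
  exact q.eventually (hU.2.mem_nhds p)

/-- iterated limits, locally uniformly -/
theorem iter1 {S T Z : Type} [PseudoMetricSpace Z] {a : Filter S} {b : Filter T} {w : ℂ}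
    {u : S → T → ℂ → Z} {v : S → ℂ → Z} {c : Z}
    (h1 : Tendsto (fun q : S × ℂ => v q.1 q.2) (a ×ˢ 𝓝 w) (𝓝 c)) {O : Set ℂ} (hO : O ∈ 𝓝 w)
    (h2 : ∀ᶠ s in a, ∀ y ∈ O, Tendsto (fun q : T × ℂ => u s q.1 q.2) (b ×ˢ 𝓝 y) (𝓝 (v s y)))
    (h3 : ∀ᶠ s in a, ∀ y ∈ O, ContinuousAt (v s) y) :
    Tendsto (fun q : (S × T) × ℂ => u q.1.1 q.1.2 q.2) (a.curry b ×ˢ 𝓝 w) (𝓝 c) := by
  refine Metric.tendsto_nhds.2 fun ε hε => ?_
  obtain ⟨p, hp, q, hq, h⟩ := eventually_prod_iff.1 (Metric.tendsto_nhds.1 h1 _ (half_pos hε))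
  obtain ⟨K, hK, sK, cK⟩ := local_compact_nhds (inter_mem hq hO)
  refine eventually_prod_iff.2 ⟨fun z => p z.1 ∧ ∀ y ∈ K, dist (u z.1 z.2 y) (v z.1 y) < ε / 2,
    eventually_curry_iff.2 ?_, fun y => y ∈ K, hK, fun {z} hz {y} hy => ?_⟩
  · filter_upwards [hp, h2, h3] with s a1 a2 a3
    have k : ∀ᶠ t in b, ∀ y ∈ K, dist (u s t y) (v s y) < ε / 2 := by
      refine cK.induction_on (p := fun L => ∀ᶠ t in b, ∀ y ∈ L, dist (u s t y) (v s y) < ε / 2)
        (by simp) (fun _ _ e f => f.mono fun t g y m => g y (e m))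
        (fun _ _ e f => (e.and f).mono fun t g y m => m.elim (g.1 y) (g.2 y)) fun y m => ?_
      have d := (a2 y (sK m).2).dist ((a3 y (sK m).2).tendsto.comp tendsto_snd)
      rw [dist_self] at d
      obtain ⟨p', hp', q', hq', h'⟩ := eventually_prod_iff.1 (d.eventually (gt_mem_nhds (half_pos hε)))
      exact ⟨{y | q' y}, mem_nhdsWithin_of_mem_nhds hq', hp'.mono fun t g y m => h' g m⟩
    exact k.mono fun t g => ⟨a1, g⟩
  · have := dist_triangle (u z.1 z.2 y) (v z.1 y) c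
    linarith [hz.2 y hy, h hz.1 (sK hy).1]

variable {C : Type} [TopologicalSpace C] {n : ℕ} {A : At C} {l : Cy A ℂ} {d : ℤ}

/-- convergence of objects along a filter -/
structure Cvg (A : At C) {J : Type} (H : J → Dat C A.N n) (f : Filter J) (z : Dat C A.N n) :
    Prop where
  lam : Tendsto (fun p => (H p).lam) f (𝓝 z.lam)
  x : Tendsto (fun p => (H p).x) f (𝓝 z.x)
  R : Tendsto (fun p => (H p).R) f (𝓝 z.R)
  g : ∀ i j, ∀ w ∈ A.O i j, Tendsto (fun q : J × ℂ => (H q.1).g i j q.2) (f ×ˢ 𝓝 w) (𝓝 (z.g i j w))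
  a : ∀ i, ∀ w ∈ off A z.x i, Tendsto (fun q : J × ℂ => (H q.1).a i q.2) (f ×ˢ 𝓝 w) (𝓝 (z.a i w))
  σ : ∀ i, z.x ∈ (A.e i).source → Tendsto (fun p => (H p).σ i) f (𝓝 (z.σ i))

variable [T2Space C]

theorem off_prod {J : Type} {f : Filter J} {x : J → C} {x0 : C} (h : Tendsto x f (𝓝 x0))
    {i : Fin A.N} {w : ℂ} (hw : w ∈ off A x0 i) : ∀ᶠ q : J × ℂ in f ×ˢ 𝓝 w, q.2 ∈ off A (x q.1) i := by
  have c := ((contAt_symm (i := i) hw.1).tendsto.comp tendsto_snd).prodMk_nhds (h.comp (tendsto_fst (g := 𝓝 w)))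
  exact (tendsto_snd.eventually (isOpen_ball.mem_nhds hw.1)).and
    (c.eventually (isOpen_ne_fun continuous_fst continuous_snd |>.mem_nhds hw.2))

theorem cvg_of_fam {T : Type} [TopologicalSpace T] {F : T → Dat C A.N n} {V : Set T} {t : T}
    (h : FamOn A l F V) (ht : t ∈ V) : Cvg A F (𝓝[V] t) (F t) := by
  refine ⟨h.lam t ht, h.x t ht, h.R t ht, fun i j w hw => ?_, fun i w hw => ?_, fun i hi => ?_⟩
  · have k := h.g i j (t, w) ⟨ht, hw⟩
    rwa [ContinuousWithinAt, nhdsWithin_prod_eq, nhdsWithin_eq_nhds.2 (O_nhds hw)] at k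
  · refine (h.a i (t, w) ⟨ht, hw⟩).tendsto.mono_left (le_inf ?_ (le_principal_iff.2 ?_))
    · rw [nhds_prod_eq]
      exact prod_mono_left _ nhdsWithin_le_nhds
    · exact (tendsto_fst.eventually self_mem_nhdsWithin).and (off_prod (h.x t ht) hw)
  · exact (P275MB.FamOn.tσ h ht tendsto_id hi).2.1

theorem Cvg.same {J : Type} {H : J → Dat C A.N n} {f : Filter J} {z z' : Dat C A.N n}
    (h : Cvg A H f z') (e : Same A z z') : Cvg A H f z :=
  ⟨e.lam ▸ h.lam, e.x ▸ h.x, e.R ▸ h.R, fun i j w hw => e.g i j w hw ▸ h.g i j w hw,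
    fun i w hw => e.a i w hw ▸ h.a i w (e.x.symm ▸ hw), fun i hi => e.σ i hi ▸ h.σ i (e.x.symm ▸ hi)⟩

theorem Cvg.iter {S T : Type} {a : Filter S} {b : Filter T} {H : S → T → Dat C A.N n}
    {G : S → Dat C A.N n} {z : Dat C A.N n} (h1 : Cvg A G a z)
    (h2 : ∀ᶠ s in a, Cvg A (H s) b (G s) ∧ Good A l (G s) ∧ (G s).x = z.x) :
    Cvg A (fun q : S × T => H q.1 q.2) (a.curry b) z := by
  refine ⟨iter0 (u := fun s t => (H s t).lam) h1.lam (h2.mono fun s e => e.1.lam),
    iter0 (u := fun s t => (H s t).x) h1.x (h2.mono fun s e => e.1.x),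
    iter0 (u := fun s t => (H s t).R) h1.R (h2.mono fun s e => e.1.R), fun i j w hw => ?_,
    fun i w hw => ?_, fun i hi => iter0 (u := fun s t => (H s t).σ i) (h1.σ i hi)
      (h2.mono fun s e => e.1.σ i (e.2.2.symm ▸ hi))⟩
  · exact iter1 (u := fun s t => (H s t).g i j) (h1.g i j w hw) (O_nhds hw)
      (h2.mono fun s e => e.1.g i j) (h2.mono fun s e y hy => (e.2.1.cc.an hy).continuousAt)
  · refine iter1 (u := fun s t => (H s t).a i) (h1.a i w hw) ((P275MB.off_open _ i).mem_nhds hw)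
      (h2.mono fun s e y hy => e.1.a i y (e.2.2.symm ▸ hy)) (h2.mono fun s e y hy => ?_)
    exact (e.2.1.hol i).continuousOn.continuousAt
      ((P275MB.off_open _ i).mem_nhds (e.2.2.symm ▸ hy))

theorem cvg_pure {J : Type} {H : J → Dat C A.N n} {p : J} (g : Good A l (H p)) :
    Cvg A H (pure p) (H p) := by
  have k := cvg_of_fam (T := Unit) (P275MB.famOn_const g univ) (mem_univ ())
  have m : Tendsto (fun _ : J => ()) (pure p) (𝓝[univ] ()) := tendsto_pure_left.2 fun _ a =>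
    mem_of_mem_nhdsWithin (mem_univ _) a
  have e : ∀ᶠ q : J × ℂ in pure p ×ˢ ⊤, q.1 = p := tendsto_fst.eventually (eventually_pure (p := fun q => q = p).2 rfl)
  refine ⟨tendsto_pure_nhds _ _, tendsto_pure_nhds _ _, tendsto_pure_nhds _ _, fun i j w hw => ?_,
    fun i w hw => ?_, fun i _ => tendsto_pure_nhds _ _⟩
  · exact ((k.g i j w hw).comp (m.prodMap tendsto_id)).congr'
      ((e.filter_mono (prod_mono_right _ le_top)).mono fun q a => by simp [a])
  · exact ((k.a i w hw).comp (m.prodMap tendsto_id)).congr'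
      ((e.filter_mono (prod_mono_right _ le_top)).mono fun q a => by simp [a])

theorem Cvg.sup {J : Type} {H : J → Dat C A.N n} {f f' : Filter J} {z : Dat C A.N n}
    (h : Cvg A H f z) (h' : Cvg A H f' z) : Cvg A H (f ⊔ f') z :=
  ⟨h.lam.sup h'.lam, h.x.sup h'.x, h.R.sup h'.R,
    fun i j w hw => sup_prod f f' (𝓝 w) ▸ (h.g i j w hw).sup (h'.g i j w hw),
    fun i w hw => sup_prod f f' (𝓝 w) ▸ (h.a i w hw).sup (h'.a i w hw),
    fun i hi => (h.σ i hi).sup (h'.σ i hi)⟩

theorem fam_of_cvg {T : Type} [TopologicalSpace T] {F : T → Dat C A.N n} {V : Set T}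
    (g : ∀ t ∈ V, Good A l (F t)) (h : ∀ t ∈ V, Cvg A F (𝓝 t) (F t)) : FamOn A l F V :=
  ⟨g, fun t a => (h t a).lam.mono_left nhdsWithin_le_nhds,
    fun t a => (h t a).x.mono_left nhdsWithin_le_nhds,
    fun t a => (h t a).R.mono_left nhdsWithin_le_nhds,
    fun i j p a => ((h _ a.1).g i j _ a.2).mono_left (nhdsWithin_le_nhds.trans nhds_prod_eq.le),
    fun i p a => ((h _ a.1).a i _ a.2).mono_left (nhdsWithin_le_nhds.trans nhds_prod_eq.le),
    fun i t a => ((h _ a.1).σ i a.2).mono_left nhdsWithin_le_nhds⟩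

/-- openness at `λ = 0` along a filter -/
theorem ev_stab (o : OPST0 n A l) {J : Type} {H : J → Dat C A.N n} {f : Filter J}
    {z : Dat C A.N n} (h : Cvg A H f z) (hg : ∀ᶠ p in f, Good A l (H p)) (g : Good A l z)
    (h0 : z.lam = 0) (st : Stab A l z) : ∀ᶠ p in f, Stab A l (H p) := by
  let F : Option J → Dat C A.N n := fun p => p.elim z H
  let _ : TopologicalSpace (Option J) := nhdsAdjoint none (f.map some)
  have e : 𝓝 (none : Option J) = pure none ⊔ f.map some := nhds_nhdsAdjoint_same _ _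
  have c : Cvg A F (f.map some) z := ⟨h.lam, h.x, h.R,
    fun i j w hw => by rw [← map_id (f := 𝓝 w), prod_map_map_eq]; exact h.g i j w hw,
    fun i w hw => by rw [← map_id (f := 𝓝 w), prod_map_map_eq]; exact h.a i w hw, h.σ⟩
  have k := o (Option J) F {p | Good A l (F p)} none (fam_of_cvg (fun _ a => a) fun p a => by
    cases p with
    | none => exact e ▸ (cvg_pure (H := F) (p := none) g).sup c
    | some p => exact nhds_nhdsAdjoint_of_ne (f.map some) (Option.some_ne_none p) ▸ cvg_pure a)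
    g h0 st
  have k' := eventually_nhdsWithin_iff.1 k
  rw [e] at k'
  exact ((eventually_sup.1 k').2.and hg).mono fun p a => a.1 a.2

/-- **stability is open** -/
theorem opst (hS : Std A l n d) : OPST n A l := by
  intro T _ F V t f ht st
  have := hS.conn
  obtain ⟨r, h1, h2, G, fG, l0, s0, iso⟩ := P275LM.lim_ob hS (F t) (f.good t ht) st
  have f' := P275MB.FamOn.res (h1 := h1) (h2 := h2) f
  suffices h : ∀ᶠ s in 𝓝[V] t, Stab (A.res r h1 h2) l (F s) by
    filter_upwards [h, self_mem_nhdsWithin] with s a b using (P275MB.stab_res (f.good s b)).1 a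
  have o := P275OS.opst0' (P275LM.std_res hS h1 h2)
  have gf := P275GF.gf n (A.res r h1 h2) l
  generalize_proofs at *
  choose! φ h iso using iso
  have gG := fun s => fG.good s (mem_univ s)
  have k : ∀ s : ℂ, s ≠ 0 → _ := fun s a =>
    gf.2.1 _ _ _ _ (gG s) (P275MB.Good.smul (f'.good t ht) s) (iso s a)
  have b : ∀ s : ℂ, s ≠ 0 → ∀ u ∈ V, _ := fun s a u hu =>
    P275KG.bun_fc (P275KG.Good.bun (f'.good u hu)) (P275KG.Good.bun (gG s))
      (P275KG.Good.bun (P275MB.Good.smul (f'.good t ht) s)) (k s a).2.1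
  have fH : ∀ s : ℂ, s ≠ 0 → FamOn (A.res r h1 h2) l
      (fun u => gauge (A.res r h1 h2) (φ s) (((F u).smul s).act (h s))) V := fun s a =>
    gf.2.2.1 T _ _ (fun _ => φ s) (fun _ => h s) V (P275MB.FamOn.smul f' continuousOn_const)
      continuousOn_const (fun i => ((iso s a).hol i).continuousOn.comp continuousOn_snd
        fun p m => m.2) fun u hu => ⟨(k s a).1, b s a u hu⟩
  have c0 : Cvg (A.res r h1 h2) G (𝓝[≠] 0) (G 0) := by
    have c := cvg_of_fam fG (mem_univ 0)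
    rw [nhdsWithin_univ, ← nhdsNE_sup_pure] at c
    exact ⟨c.lam.mono_left le_sup_left, c.x.mono_left le_sup_left, c.R.mono_left le_sup_left,
      fun i j w a => (c.g i j w a).mono_left (prod_mono_left _ le_sup_left),
      fun i w a => (c.a i w a).mono_left (prod_mono_left _ le_sup_left),
      fun i a => (c.σ i a).mono_left le_sup_left⟩
  have ex : ∀ s : ℂ, s ≠ 0 → (G s).x = (F t).x := fun s a => (iso s a).x.symm
  have e0 : (G 0).x = (F t).x := tendsto_nhds_unique c0.x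
    (tendsto_const_nhds.congr' (eventually_of_mem self_mem_nhdsWithin fun s a => (ex s a).symm))
  have c := Cvg.iter (A := A.res r h1 h2) (l := l) (b := 𝓝[V] t) c0 (eventually_of_mem self_mem_nhdsWithin fun s a =>
    ⟨(cvg_of_fam (fH s a) ht).same (k s a).2.2, gG s, (ex s a).trans e0.symm⟩)
  have ev := eventually_curry_iff.1 (ev_stab o c (eventually_curry_iff.2
    (eventually_of_mem self_mem_nhdsWithin fun s a =>
      eventually_of_mem self_mem_nhdsWithin fun u hu => (fH s a).good u hu)) (gG 0) l0 s0)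
  obtain ⟨s, e, a⟩ := (ev.and self_mem_nhdsWithin).exists
  filter_upwards [e, self_mem_nhdsWithin] with u p hu
  have g1 := P275MB.Good.act (P275MB.Good.smul (f'.good u hu) s) (k s a).1
  have i1 := (gf.1 _ _ _ g1 (b s a u hu).1 (b s a u hu).2).2.1
  have i2 := P275MB.IsoBy.symm ((fH s a).good u hu) i1
  exact (P275MB.stab_smul a).1 (P275MB.stab_act.1
    (P275MB.Stab.iso g1 ((fH s a).good u hu) i2.toHom i2.det p))

end Vale.Agent.P275MO
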