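import Vale.Agent.P275MO.Kur
import Vale.Agent.P275MO.Cn
import Vale.Agent.P275MO.Opst
import Vale.Agent.P275KI.Main
import Vale.Agent.P275Z.Mid

/-!
# P275, block MO: the row MOD of the skeleton
-/

set_option linter.all false

noncomputable section

namespace Vale.Agent.P275MO

open Vale.Agent.P275GC
open Vale.Agent.P275NA (Cy)

theorem mod_of
    (h : ∀ (C : Type) [TopologicalSpace C] (n : ℕ) (A : At C) (l : Cy A ℂ) (d : ℤ), Std A l n d →
      VB n A l ∧ CN n A l ∧ OPST n A l) : P275Z.MOD := fun S T =>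
  have k : KUR S.n T.A T.l := kur_of T.std (fun r h1 h2 => (h _ _ _ _ _ (T.std.res r h1 h2)).1)
    (fun r h1 h2 => (h _ _ _ _ _ (T.std.res r h1 h2)).2.1)
    fun r h1 h2 => (h _ _ _ _ _ (T.std.res r h1 h2)).2.2
  ⟨k, P275MB.nice' T.std k⟩

variable {C : Type} [TopologicalSpace C] {n : ℕ} {A : At C} {l : Cy A ℂ} {d : ℤ}

theorem opst' (h : Std A l n d) : OPST n A l :=
  have := h.t2
  opst h

/-- **Kuranishi charts exist** -/
theorem kur (h : Std A l n d) : KUR n A l :=
  kur_of h (fun r h1 h2 => P275KI.vb (h.res r h1 h2)) (fun r h1 h2 => cn (h.res r h1 h2))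
    fun r h1 h2 => opst' (h.res r h1 h2)

theorem nice (h : Std A l n d) : NICE n A l := P275MB.nice' h (kur h)

/-- **the row MOD** -/
theorem mod : P275Z.MOD := fun _ T => ⟨kur T.std, nice T.std⟩

end Vale.Agent.P275MO
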