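import Vale.Agent.P275MO.Frs

/-!
# P275, block MO: smooth isomorphisms between nearby bundles
-/

set_option linter.all false

open scoped Topology Matrix.Norms.Operator ContDiff ComplexConjugate
open Set Filter Metric Matrix

noncomputable section

namespace Vale.Agent.P275MO

open Vale.Agent.P281Z.Hm
open Vale.Agent.P275GC Vale.Agent.P275GC.At
open Vale.Agent.P275NA (Fm Cy Mn db dz Wk fc)
open Vale.Agent.P275KI (WA wa_cd wa_an wa_const)

variable {C : Type} [TopologicalSpace C] {n : ℕ} {A : At C} {g g1 : Cy A (Mn n)}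
  {i j k : Fin A.N} {w : ℂ}

/-- the map from `g1` to `g` through the chart `k` -/
def tk (A : At C) (g g1 : Cy A (Mn n)) (k i : Fin A.N) (w : ℂ) : Mn n :=
  g i k w * g1 k i (A.tr i k w)

/-- the partition of unity, complex valued -/
def φC (A : At C) (k i : Fin A.N) (w : ℂ) : ℂ := A.φ k i w

/-- a smooth map from the bundle `g1` to the bundle `g` -/
def θ (A : At C) (g g1 : Cy A (Mn n)) : Fm A (Mn n) := fun i w =>
  ∑ k, φC A k i w • tk A g g1 k i w

/-- its `db` derivative -/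
def θ' (A : At C) (g g1 : Cy A (Mn n)) : Fm A (Mn n) := fun i w =>
  ∑ k, db (φC A k i) w • tk A g g1 k i w

theorem φC_not (h : w ∈ ball (0 : ℂ) A.R) (h' : w ∉ A.O i k) : φC A k i w = 0 := by
  rw [φC, φ_not h h', Complex.ofReal_zero]

theorem θ_law (hg : A.Cc g) (h1 : A.Cc g1) (h : w ∈ A.O i j) :
    θ A g g1 i w * g1 i j w = g i j w * θ A g g1 j (A.tr i j w) := by
  simp only [θ, Finset.sum_mul, Finset.mul_sum, smul_mul_assoc, mul_smul_comm]
  refine Finset.sum_congr rfl fun k _ => ?_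
  rw [show φC A k j (A.tr i j w) = φC A k i w from congrArg _ (fn_φ k i j w h).symm]
  by_cases a : w ∈ A.O i k
  · have e := h1.mul k i j _ (tr_mem a) (tr_O a h)
    rw [tr_inv a] at e
    rw [tk, tk, tr_tr h, mul_assoc, ← e, hg.mul i j k w h a, mul_assoc]
  · rw [φC_not h.1 a, zero_smul, zero_smul]

theorem θ_one (h1 : A.Cc g1) (e : ∀ i j, ∀ w ∈ A.O i j, g i j w = g1 i j w)
    (h : w ∈ ball (0 : ℂ) A.R) : θ A g g1 i w = 1 := by
  have : ∀ k, φC A k i w • tk A g g1 k i w = φC A k i w • (1 : Mn n) := fun k => by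
    by_cases a : w ∈ A.O i k
    · rw [tk, e i k w a, h1.inv a]
    · rw [φC_not h a, zero_smul, zero_smul]
  simp only [θ, this]
  simp only [← Finset.sum_smul, φC, ← Complex.ofReal_sum, sum_φ, Complex.ofReal_one, one_smul]

theorem an_tk (hg : A.Cc g) (h1 : A.Cc g1) (a : w ∈ A.O i k) : AnalyticAt ℂ (tk A g g1 k i) w :=
  (hg.an a).mul ((h1.an (tr_mem a)).comp (an_tr a))

variable [T2Space C]

theorem cd_φC (h : w ∈ ball (0 : ℂ) A.R) : ContDiffAt ℝ ∞ (φC A k i) w :=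
  cd_ofReal ((sm_φ k).at h i)

theorem ev_φC (h : w ∈ ball (0 : ℂ) A.R) (h' : w ∉ A.O i k) :
    ∀ᶠ y in 𝓝 w, φC A k i y = 0 ∧ db (φC A k i) y = 0 := by
  have e : φC A k i =ᶠ[𝓝 w] fun _ => 0 := (ev_φ h h').mono fun y a => by
    rw [φC, a, Complex.ofReal_zero]
  exact e.and ((wb_congr_ev e 1).mono fun y a => a.trans (wb_const 0 1 y))

theorem sm_θ (hg : A.Cc g) (h1 : A.Cc g1) : A.Sm ∞ (θ A g g1) := fun i w h => by
  refine (ContDiffAt.sum fun k _ => ?_).contDiffWithinAt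
  by_cases a : w ∈ A.O i k
  · exact cd_smul (cd_φC h) (cd_an (an_tk hg h1 a))
  · exact contDiffAt_const.congr_of_eventuallyEq ((ev_φC h a).mono fun y b => by
      show φC A k i y • _ = 0
      rw [b.1, zero_smul])

theorem wa_θ (hg : A.Cc g) (h1 : A.Cc g1) (h : w ∈ ball (0 : ℂ) A.R) :
    WA (θ A g g1 i) (θ' A g g1 i) w := by
  refine WA.sum Finset.univ (u := fun k y => φC A k i y • tk A g g1 k i y)
    (G := fun k y => db (φC A k i) y • tk A g g1 k i y) fun k _ => ?_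
  by_cases a : w ∈ A.O i k
  · exact ((wa_cd ((cd_φC h).of_le one_le')).smul (wa_an (an_tk hg h1 a))).congr EventuallyEq.rfl
      (Eventually.of_forall fun y => by simp)
  · exact (wa_const (0 : Mn n)).congr ((ev_φC h a).mono fun y b => by simp [b.1])
      ((ev_φC h a).mono fun y b => by simp [b.2])

theorem db_θ (hg : A.Cc g) (h1 : A.Cc g1) (h : w ∈ ball (0 : ℂ) A.R) :
    db (θ A g g1 i) w = θ' A g g1 i w :=
  (wa_cd (((sm_θ hg h1).at h i).of_le one_le')).uniq (wa_θ hg h1 h)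

section fam
variable {T : Type} [TopologicalSpace T] {G : T → Cy A (Mn n)} {V : Set T}

theorem joint_sum {c : Fin A.N → ℂ → ℂ} (h1 : A.Cc g1)
    (hc : ∀ k, ∀ w ∈ ball (0 : ℂ) A.R, ContinuousAt (c k) w)
    (h0 : ∀ k, ∀ w ∈ ball (0 : ℂ) A.R, w ∉ A.O i k → ∀ᶠ y in 𝓝 w, c k y = 0)
    (hG : ∀ i j, ContinuousOn (fun p : T × ℂ => G p.1 i j p.2) (V ×ˢ A.O i j)) :
    ContinuousOn (fun p : T × ℂ => ∑ k, c k p.2 • tk A (G p.1) g1 k i p.2) (V ×ˢ ball 0 A.R) := by
  refine continuousOn_finset_sum _ fun k _ p hp => ?_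
  by_cases a : p.2 ∈ A.O i k
  · have c1 : ContinuousWithinAt (fun p : T × ℂ => G p.1 i k p.2) (V ×ˢ ball 0 A.R) p :=
      (hG i k p ⟨hp.1, a⟩).mono_of_mem_nhdsWithin (mem_nhdsWithin.2 ⟨univ ×ˢ A.O i k,
        isOpen_univ.prod (O_open i k), ⟨mem_univ _, a⟩, fun q b => ⟨b.2.1, b.1.2⟩⟩)
    have c2 : ContinuousAt (fun p : T × ℂ => g1 k i (A.tr i k p.2)) p :=
      ((h1.an (tr_mem a)).comp (an_tr a)).continuousAt.comp continuousAt_snd
    exact ((hc k _ hp.2).comp continuousAt_snd).continuousWithinAt.smul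
      (c1.mul c2.continuousWithinAt)
  · have e : ∀ᶠ q : T × ℂ in 𝓝 p, c k q.2 = 0 := continuousAt_snd.eventually (h0 k _ hp.2 a)
    exact (continuousAt_const.congr (f := fun _ => (0 : Mn n))
      (e.mono fun q b => by simp [b])).continuousWithinAt

theorem joint_θ (h1 : A.Cc g1)
    (hG : ∀ i j, ContinuousOn (fun p : T × ℂ => G p.1 i j p.2) (V ×ˢ A.O i j)) (i : Fin A.N) :
    ContinuousOn (fun p : T × ℂ => θ A (G p.1) g1 i p.2) (V ×ˢ ball 0 A.R) :=
  joint_sum h1 (fun _ _ h => (cd_φC h).continuousAt) (fun _ _ h a => (ev_φC h a).mono fun _ b => b.1)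
    hG

theorem joint_θ' (h1 : A.Cc g1)
    (hG : ∀ i j, ContinuousOn (fun p : T × ℂ => G p.1 i j p.2) (V ×ˢ A.O i j)) (i : Fin A.N) :
    ContinuousOn (fun p : T × ℂ => θ' A (G p.1) g1 i p.2) (V ×ˢ ball 0 A.R) :=
  joint_sum h1 (fun _ _ h => (cd_db (cd_φC h) (m := 0) one_le').continuousAt)
    (fun _ _ h a => (ev_φC h a).mono fun _ b => b.2) hG

/-- `θ` is close to `1` on the closed unit discs near a parameter where the cocycles agree -/
theorem near_θ (h1 : A.Cc g1) {t : T} (hV : V ∈ 𝓝 t)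
    (hG : ∀ i j, ContinuousOn (fun p : T × ℂ => G p.1 i j p.2) (V ×ˢ A.O i j))
    (e : ∀ i j, ∀ w ∈ A.O i j, G t i j w = g1 i j w) {N : Set (Mn n)} (hN : N ∈ 𝓝 (1 : Mn n)) :
    ∀ᶠ s in 𝓝 t, ∀ i w, ‖w‖ ≤ 1 → θ A (G s) g1 i w ∈ N := by
  refine eventually_all.2 fun i => ?_
  have k := (isCompact_closedBall (0 : ℂ) 1).eventually_forall_of_forall_eventually
    (x₀ := t) (P := fun s w => θ A (G s) g1 i w ∈ N) fun w hw => by
      have hw' := A.unit_sub hw
      have c := (joint_θ h1 hG i).continuousAt (prod_mem_nhds hV (isOpen_ball.mem_nhds hw'))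
      exact c.eventually (show N ∈ 𝓝 (θ A (G t) g1 i w) by rwa [θ_one h1 e hw'])
  exact k.mono fun s a w hw => a w (mem_closedBall_zero_iff.2 hw)

end fam

section hol
variable {E : Type} [NormedAddCommGroup E] [NormedSpace ℂ E] {G : E → Cy A (Mn n)} {V : Set E}

theorem df_sum {c : Fin A.N → ℂ} (h0 : ∀ k, w ∉ A.O i k → c k = 0)
    (hG : ∀ i j, DifferentiableOn ℂ (fun p : E × ℂ => G p.1 i j p.2) (V ×ˢ A.O i j)) :
    DifferentiableOn ℂ (fun t => ∑ k, c k • tk A (G t) g1 k i w) V := by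
  refine DifferentiableOn.fun_sum fun k _ => ?_
  by_cases a : w ∈ A.O i k
  · have d : DifferentiableOn ℂ (fun t => G t i k w) V :=
      (hG i k).comp (differentiableOn_id.prodMk (differentiableOn_const w)) fun t b => ⟨b, a⟩
    exact (d.mul_const (g1 k i (A.tr i k w))).const_smul (c k)
  · simp only [h0 k a, zero_smul]
    exact differentiableOn_const _

theorem df_θ (hG : ∀ i j, DifferentiableOn ℂ (fun p : E × ℂ => G p.1 i j p.2) (V ×ˢ A.O i j))
    (h : w ∈ ball (0 : ℂ) A.R) : DifferentiableOn ℂ (fun t => θ A (G t) g1 i w) V :=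
  df_sum (fun _ a => φC_not h a) hG

theorem df_θ' (hG : ∀ i j, DifferentiableOn ℂ (fun p : E × ℂ => G p.1 i j p.2) (V ×ˢ A.O i j))
    (h : w ∈ ball (0 : ℂ) A.R) : DifferentiableOn ℂ (fun t => θ' A (G t) g1 i w) V :=
  df_sum (fun _ a => (ev_φC h a).self_of_nhds.2) hG

end hol

end Vale.Agent.P275MO
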